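import Crest.Agent.R12.PO.Defs

/-! Row 12, block PO: finite rearrangements.  Prefix for helper lemmas: `cm_`. -/

set_option autoImplicit false

namespace Crest.Agent.R12.PO

open Crest.Agent.R17 Complex MeasureTheory
open scoped Real ComplexConjugate

variable {γ : O → ℂ} {B X : ℝ}

theorem cma_summable {a A : ℝ} (ha : 0 < a) (hA : 0 < A) (b₁ b₂ : O) :
    Summable fun x : Pr => (LW a A (nm x) : ℂ) * (conj (cb x b₁) * cb x b₂) := by
  have h := summable_LW_pr ha hA (f := fun n => conj (cb n b₁) * cb n b₂) (M := 1) (θ := 0)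
    fun n _ => by
      rw [norm_mul, RCLike.norm_conj, Real.rpow_zero, mul_one]
      exact mul_le_one₀ (norm_cb_le _ _) (norm_nonneg _) (norm_cb_le _ _)
  exact h.of_norm.congr fun x => mul_comm _ _

/-- `Complex.ofReal_tsum`, `‖z‖² = z conj z`, `Summable.tsum_finsetSum` (`summable_LW_pr`, `norm_cb_le`) -/
theorem EN_eq {a A : ℝ} (ha : 0 < a) (hA : 0 < A) (γ : O → ℂ) (X : ℝ) :
    (EN a A γ X : ℂ) = ∑ b₁ ∈ ball X, ∑ b₂ ∈ ball X, γ b₁ * conj (γ b₂) * TP a A b₁ b₂ := by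
  have hs : ∀ b₁ b₂ : O, Summable fun x : Pr => γ b₁ * conj (γ b₂) * (GG b₁ * conj (GG b₂) *
      ((LW a A (nm x) : ℂ) * (conj (cb x b₁) * cb x b₂))) := fun b₁ b₂ =>
    ((cma_summable ha hA b₁ b₂).mul_left _).mul_left _
  have e : ∀ x : Pr, ((LW a A (nm x) * ‖XG γ X x‖ ^ 2 : ℝ) : ℂ) =
      ∑ b₁ ∈ ball X, ∑ b₂ ∈ ball X, γ b₁ * conj (γ b₂) * (GG b₁ * conj (GG b₂) *
        ((LW a A (nm x) : ℂ) * (conj (cb x b₁) * cb x b₂))) := fun x => by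
    rw [ofReal_mul, ofReal_pow, ← Complex.mul_conj', XG, map_sum, Finset.sum_mul_sum, Finset.mul_sum]
    refine Finset.sum_congr rfl fun b₁ _ => ?_
    rw [Finset.mul_sum]
    refine Finset.sum_congr rfl fun b₂ _ => ?_
    simp only [map_mul, Complex.conj_conj]
    ring
  rw [EN, Complex.ofReal_tsum, tsum_congr e,
    Summable.tsum_finsetSum fun b₁ _ => summable_sum fun b₂ _ => hs b₁ b₂]
  refine Finset.sum_congr rfl fun b₁ _ => ?_
  rw [Summable.tsum_finsetSum fun b₂ _ => hs b₁ b₂]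
  refine Finset.sum_congr rfl fun b₂ _ => ?_
  rw [tsum_mul_left, tsum_mul_left, TP]

/-- `psq_mul_iff`, `Prim.of_mul` -/
theorem tri_of_ne (hγ : Supp γ B X) {g n₁ n₂ : O} (hg : PSq g) (hc : IsCoprime n₁ n₂)
    (h₁ : γ (g * n₁) ≠ 0) (h₂ : γ (g * n₂) ≠ 0) : Tri g n₁ n₂ := by
  have p₁ := (hγ _ h₁).1
  have p₂ := (hγ _ h₂).1
  have q₁ := (psq_mul_iff hg.1 (hg.1.of_mul p₁.1)).1 p₁
  have q₂ := (psq_mul_iff hg.1 (hg.1.of_mul p₂.1)).1 p₂
  exact ⟨hg, q₁.2.1, q₂.2.1, q₁.2.2, q₂.2.2, hc⟩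

/-- `Prim.exists_gcd`, `gcd_unique`; `Finset.sum_bij_ne_zero` between `sball X ×ˢ ball X ×ˢ ball X` and
`ball X ×ˢ ball X` -/
theorem SG_gcd (hγ : Supp γ B X) (F : O → O → ℂ) :
    ∑ b₁ ∈ ball X, ∑ b₂ ∈ ball X, γ b₁ * conj (γ b₂) * F b₁ b₂ =
      SG γ X fun g n₁ n₂ => F (g * n₁) (g * n₂) := by
  classical
  have e : (SG γ X fun g n₁ n₂ => F (g * n₁) (g * n₂)) =
      ∑ t ∈ (sball X ×ˢ ball X ×ˢ ball X).filter (fun t => IsCoprime t.2.1 t.2.2),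
        γ (t.1 * t.2.1) * conj (γ (t.1 * t.2.2)) * F (t.1 * t.2.1) (t.1 * t.2.2) := by
    rw [Finset.sum_filter, Finset.sum_product, SG]
    refine Finset.sum_congr rfl fun g _ => ?_
    rw [Finset.sum_product]
  have hne : ∀ b₁ b₂ : O, γ b₁ * conj (γ b₂) * F b₁ b₂ ≠ 0 → γ b₁ ≠ 0 ∧ γ b₂ ≠ 0 := fun b₁ b₂ h =>
    ⟨fun h0 => h (by simp [h0]), fun h0 => h (by simp [h0])⟩
  rw [e, ← Finset.sum_product' (f := fun b₁ b₂ => γ b₁ * conj (γ b₂) * F b₁ b₂)]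
  symm
  refine Finset.sum_bij_ne_zero (fun t _ _ => (t.1 * t.2.1, t.1 * t.2.2)) ?_ ?_ ?_ fun _ _ _ => rfl
  · intro t _ h
    obtain ⟨h1, h2⟩ := hne _ _ h
    exact Finset.mem_product.2 ⟨mem_ball.2 (hγ _ h1).2.2, mem_ball.2 (hγ _ h2).2.2⟩
  · intro t ht _ t' ht' _ h
    obtain ⟨a1, a2⟩ := Finset.mem_filter.1 ht
    obtain ⟨b1, b2⟩ := Finset.mem_filter.1 ht'
    obtain ⟨c1, c2, c3⟩ := gcd_unique (mem_sball.1 (Finset.mem_product.1 a1).1).2.1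
      (mem_sball.1 (Finset.mem_product.1 b1).1).2.1 (Prod.mk.inj h).1 (Prod.mk.inj h).2 a2 b2
    exact Prod.ext c1 (Prod.ext c2 c3)
  · rintro ⟨b₁, b₂⟩ - h
    obtain ⟨h1, h2⟩ := hne _ _ h
    obtain ⟨a1, -, a2⟩ := hγ _ h1
    obtain ⟨c1, -, c2⟩ := hγ _ h2
    obtain ⟨g, n₁, n₂, hg, -, rfl, rfl, hc⟩ := a1.1.exists_gcd b₂
    refine ⟨(g, n₁, n₂), Finset.mem_filter.2 ⟨Finset.mem_product.2 ⟨mem_sball.2
      ⟨?_, hg, a1.2.of_mul_left⟩, Finset.mem_product.2 ⟨mem_ball.2 ?_, mem_ball.2 ?_⟩⟩, hc⟩, h, rfl⟩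
    · exact (nm_le_of_dvd (dvd_mul_right _ _) a1.ne_zero).trans a2
    · exact (nm_le_of_dvd (dvd_mul_left _ _) a1.ne_zero).trans a2
    · exact (nm_le_of_dvd (dvd_mul_left _ _) c1.ne_zero).trans c2

theorem SG_congr (hγ : Supp γ B X) {F F' : O → O → O → ℂ}
    (h : ∀ g n₁ n₂, Tri g n₁ n₂ → F g n₁ n₂ = F' g n₁ n₂) : SG γ X F = SG γ X F' := by
  unfold SG
  refine Finset.sum_congr rfl fun g hg => Finset.sum_congr rfl fun n₁ _ =>
    Finset.sum_congr rfl fun n₂ _ => ?_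
  split_ifs with hc
  · by_cases h₁ : γ (g * n₁) = 0
    · simp [h₁]
    by_cases h₂ : γ (g * n₂) = 0
    · simp [h₂]
    rw [h g n₁ n₂ (tri_of_ne hγ (mem_sball.1 hg).2 hc h₁ h₂)]
  · rfl

theorem SG_add (γ : O → ℂ) (X : ℝ) (F F' : O → O → O → ℂ) :
    SG γ X (fun g n₁ n₂ => F g n₁ n₂ + F' g n₁ n₂) = SG γ X F + SG γ X F' := by
  unfold SG
  simp only [← Finset.sum_add_distrib]
  refine Finset.sum_congr rfl fun g _ => Finset.sum_congr rfl fun n₁ _ =>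
    Finset.sum_congr rfl fun n₂ _ => ?_
  split_ifs
  · ring
  · simp

theorem SG_sub (γ : O → ℂ) (X : ℝ) (F F' : O → O → O → ℂ) :
    SG γ X (fun g n₁ n₂ => F g n₁ n₂ - F' g n₁ n₂) = SG γ X F - SG γ X F' := by
  unfold SG
  simp only [← Finset.sum_sub_distrib]
  refine Finset.sum_congr rfl fun g _ => Finset.sum_congr rfl fun n₁ _ =>
    Finset.sum_congr rfl fun n₂ _ => ?_
  split_ifs
  · ring
  · simp

open Classical in
/-- `Phi_pos`, `Phi_le_one` -/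
theorem norm_SG_diag (γ : O → ℂ) (X : ℝ) (c : ℂ) :
    ‖SG γ X fun g n₁ n₂ => if n₁ = 1 ∧ n₂ = 1 then c * (Phi g : ℂ) else 0‖ ≤ ‖c‖ * N2 γ X := by
  unfold SG N2
  refine (norm_sum_le _ _).trans ?_
  rw [Finset.mul_sum]
  refine le_trans (Finset.sum_le_sum (g := fun g => ‖c‖ * ‖γ g‖ ^ 2) fun g _ => ?_)
    (Finset.sum_le_sum_of_subset_of_nonneg (Finset.filter_subset _ _) fun g _ _ => by positivity)
  have e : ∀ n₁ n₂ : O, (if IsCoprime n₁ n₂ then γ (g * n₁) * conj (γ (g * n₂)) *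
      (if n₁ = 1 ∧ n₂ = 1 then c * (Phi g : ℂ) else 0) else 0) =
      if n₁ = 1 then (if n₂ = 1 then γ g * conj (γ g) * (c * (Phi g : ℂ)) else 0) else 0 := by
    intro n₁ n₂
    by_cases h₁ : n₁ = 1
    · by_cases h₂ : n₂ = 1
      · simp [h₁, h₂, isCoprime_one_left]
      · simp [h₂]
    · simp [h₁]
  simp only [e, Finset.sum_ite_irrel, Finset.sum_ite_eq', Finset.sum_const_zero]
  have hb : ‖γ g * conj (γ g) * (c * (Phi g : ℂ))‖ ≤ ‖c‖ * ‖γ g‖ ^ 2 := by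
    rw [norm_mul, norm_mul, norm_mul, RCLike.norm_conj, Complex.norm_real,
      Real.norm_of_nonneg (Phi_pos g).le]
    have := mul_le_mul_of_nonneg_left (Phi_le_one g) (show 0 ≤ ‖c‖ * ‖γ g‖ ^ 2 by positivity)
    linarith
  split_ifs
  · exact hb
  · rw [norm_zero]
    positivity

/-- `one_le_dn` -/
theorem norm_SG_le_CR (hγ : Supp γ B X) {F : O → O → O → ℂ} {M : ℝ} (hM : 0 ≤ M)
    (h : ∀ g n₁ n₂, Tri g n₁ n₂ → B < nm (g * n₁) → B < nm (g * n₂) →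
      ‖F g n₁ n₂‖ ≤ M * (nm g ^ (1 / 4 : ℝ) * (dn n₁ * dn n₂))) : ‖SG γ X F‖ ≤ M * CR γ X := by
  unfold SG CR
  refine (norm_sum_le _ _).trans ?_
  rw [Finset.mul_sum]
  refine Finset.sum_le_sum fun g hg => ?_
  have hg' := (mem_sball.1 hg).2
  have hp : 0 ≤ nm g ^ (1 / 4 : ℝ) := Real.rpow_nonneg (nm_nonneg g) _
  have hd : 1 ≤ dn g := one_le_dn hg'.ne_zero
  rw [sq, Finset.sum_mul_sum, Finset.mul_sum, Finset.mul_sum]
  refine (norm_sum_le _ _).trans (Finset.sum_le_sum fun n₁ _ => ?_)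
  rw [Finset.mul_sum, Finset.mul_sum]
  refine (norm_sum_le _ _).trans (Finset.sum_le_sum fun n₂ _ => ?_)
  have d₁ := dn_nonneg n₁
  have d₂ := dn_nonneg n₂
  have h0 : 0 ≤ M * (nm g ^ (1 / 4 : ℝ) * dn g *
      (‖γ (g * n₁)‖ * dn n₁ * (‖γ (g * n₂)‖ * dn n₂))) := by positivity
  split_ifs with hc
  · by_cases h₁ : γ (g * n₁) = 0
    · simp [h₁]
    by_cases h₂ : γ (g * n₂) = 0
    · simp [h₂]
    have hF := h g n₁ n₂ (tri_of_ne hγ hg' hc h₁ h₂) (hγ _ h₁).2.1 (hγ _ h₂).2.1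
    rw [norm_mul, norm_mul, RCLike.norm_conj]
    calc ‖γ (g * n₁)‖ * ‖γ (g * n₂)‖ * ‖F g n₁ n₂‖
        ≤ ‖γ (g * n₁)‖ * ‖γ (g * n₂)‖ * (M * (nm g ^ (1 / 4 : ℝ) * (dn n₁ * dn n₂))) := by gcongr
      _ = M * (nm g ^ (1 / 4 : ℝ) * 1 * (‖γ (g * n₁)‖ * dn n₁ * (‖γ (g * n₂)‖ * dn n₂))) := by ring
      _ ≤ _ := by gcongr
  · rwa [norm_zero]

open Classical in
theorem cm_c_reidx {j : O} (hj : j ≠ 0) {H : O → ℂ} (hH : ∀ n, H n ≠ 0 → nm n ≤ X) :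
    ∑ n ∈ ball X, (if j ∣ n then H n else 0) = ∑ n ∈ ball X, H (j * n) := by
  symm
  refine Finset.sum_bij_ne_zero (fun n _ _ => j * n) (fun n _ h => mem_ball.2 (hH _ h))
    (fun a _ _ b _ _ h => mul_left_cancel₀ hj h) (fun b hb h => ?_) (fun a _ _ => ?_)
  · have hd : j ∣ b := by
      by_contra hd
      exact h (if_neg hd)
    rw [if_pos hd] at h
    obtain ⟨c, rfl⟩ := hd
    refine ⟨c, mem_ball.2 ?_, h, rfl⟩
    have h1 := one_le_nm hj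
    have h2 := mem_ball.1 hb
    rw [nm_mul] at h2
    nlinarith [nm_nonneg c]
  · rw [if_pos (dvd_mul_right _ _)]

open Classical in
theorem cm_c_mu {n₁ : O} (h₁ : Prim n₁) (hX : nm n₁ ≤ X) (n₂ : O) (T : ℂ) :
    (if IsCoprime n₁ n₂ then T else 0) =
      ∑ j ∈ sball X, mu j * (if j ∣ n₁ then (if j ∣ n₂ then T else 0) else 0) := by
  rw [← boole_mul, ← sum_mu_coprime h₁ n₂, Finset.sum_mul]
  refine Finset.sum_bij_ne_zero (fun n _ _ => n) (fun d hd h => ?_)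
    (fun a _ _ b _ _ h => h) (fun b hb h => ?_) (fun a ha _ => ?_)
  · obtain ⟨hp, hd'⟩ := (mem_pdiv h₁.ne_zero).1 hd
    refine mem_sball.2 ⟨(nm_le_of_dvd hd' h₁.ne_zero).trans hX, hp, ?_⟩
    by_contra hs
    apply h
    simp [mu_eq_zero.2 hs]
  · have hd : b ∣ n₁ := by
      by_contra hd
      apply h
      rw [if_neg hd, mul_zero]
    refine ⟨b, (mem_pdiv h₁.ne_zero).2 ⟨(mem_sball.1 hb).2.1, hd⟩, ?_, rfl⟩
    rw [if_pos hd] at h
    rw [ite_mul, zero_mul]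
    rwa [mul_ite, mul_zero] at h
  · rw [if_pos ((mem_pdiv h₁.ne_zero).1 ha).2, ite_mul, zero_mul, mul_ite, mul_zero]

theorem cm_c_le (hγ : Supp γ B X) {g n : O} (hg : g ≠ 0) (h : γ (g * n) ≠ 0) : nm n ≤ X := by
  have h2 := (hγ _ h).2.2
  have h1 := one_le_nm hg
  rw [nm_mul] at h2
  nlinarith [nm_nonneg n]

/-- if `γ (g n₁) ≠ 0` then `n₁` is primary: `sum_mu_coprime`; `μ(j) = 0` unless `j` is squarefree;
`n_i = j n_i'` (terms outside the ball vanish) -/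
theorem SG_mob (hγ : Supp γ B X) (F : O → O → O → ℂ) :
    SG γ X F = ∑ g ∈ sball X, ∑ j ∈ sball X, mu j * ∑ n₁ ∈ ball X, ∑ n₂ ∈ ball X,
      γ (g * j * n₁) * conj (γ (g * j * n₂)) * F g (j * n₁) (j * n₂) := by
  classical
  unfold SG
  refine Finset.sum_congr rfl fun g hg => ?_
  have hg' := (mem_sball.1 hg).2
  have e1 : ∀ n₁ ∈ ball X, ∀ n₂ ∈ ball X,
      (if IsCoprime n₁ n₂ then γ (g * n₁) * conj (γ (g * n₂)) * F g n₁ n₂ else 0) =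
        ∑ j ∈ sball X, mu j * (if j ∣ n₁ then (if j ∣ n₂ then
          γ (g * n₁) * conj (γ (g * n₂)) * F g n₁ n₂ else 0) else 0) := by
    intro n₁ h₁ n₂ _
    by_cases h : γ (g * n₁) = 0
    · simp [h]
    · exact cm_c_mu (hg'.1.of_mul (hγ _ h).1.1) (mem_ball.1 h₁) n₂ _
  rw [Finset.sum_congr rfl fun n₁ h₁ => Finset.sum_congr rfl fun n₂ h₂ => e1 n₁ h₁ n₂ h₂]
  rw [Finset.sum_congr rfl fun n₁ _ => Finset.sum_comm, Finset.sum_comm]
  refine Finset.sum_congr rfl fun j hj => ?_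
  have hj0 := (mem_sball.1 hj).2.ne_zero
  simp only [← Finset.mul_sum]
  congr 1
  have e2 : ∀ n₁ ∈ ball X, ∑ n₂ ∈ ball X, (if j ∣ n₁ then (if j ∣ n₂ then
      γ (g * n₁) * conj (γ (g * n₂)) * F g n₁ n₂ else 0) else 0) =
      if j ∣ n₁ then ∑ n₂ ∈ ball X, γ (g * n₁) * conj (γ (g * j * n₂)) * F g n₁ (j * n₂) else 0 := by
    intro n₁ _
    split_ifs with h
    · rw [cm_c_reidx hj0 (H := fun n₂ => γ (g * n₁) * conj (γ (g * n₂)) * F g n₁ n₂)]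
      · simp only [mul_assoc]
      · intro n hn
        refine cm_c_le hγ hg'.ne_zero fun h0 => hn ?_
        simp [h0]
    · simp
  rw [Finset.sum_congr rfl e2, cm_c_reidx hj0
    (H := fun n₁ => ∑ n₂ ∈ ball X, γ (g * n₁) * conj (γ (g * j * n₂)) * F g n₁ (j * n₂))]
  · simp only [mul_assoc]
  · intro n hn
    refine cm_c_le hγ hg'.ne_zero fun h0 => hn ?_
    simp [h0]

/-- at most `dn l` pairs `(g, j)` have `g j = l` (`card_anti`) -/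
theorem sum_lab (X : ℝ) {T : O → O → ℝ} {w : O → ℝ} (hw : ∀ l, 0 ≤ w l)
    (h₁ : ∀ g j, PSq g → PSq j → g * j ∈ sball X → T g j ≤ w (g * j))
    (h₀ : ∀ g j, PSq g → PSq j → g * j ∉ sball X → T g j ≤ 0) :
    ∑ g ∈ sball X, ∑ j ∈ sball X, T g j ≤ ∑ l ∈ sball X, dn l * w l := by
  classical
  have hmap : ∀ p ∈ (sball X ×ˢ sball X).filter (fun p : O × O => p.1 * p.2 ∈ sball X),
      p.1 * p.2 ∈ sball X := fun p hp => (Finset.mem_filter.1 hp).2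
  calc _ = ∑ p ∈ sball X ×ˢ sball X, T p.1 p.2 := (Finset.sum_product' _ _ _).symm
    _ ≤ ∑ p ∈ (sball X ×ˢ sball X).filter (fun p : O × O => p.1 * p.2 ∈ sball X), w (p.1 * p.2) := by
        rw [Finset.sum_filter]
        refine Finset.sum_le_sum fun p hp => ?_
        obtain ⟨a1, a2⟩ := Finset.mem_product.1 hp
        split_ifs with h
        · exact h₁ _ _ (mem_sball.1 a1).2 (mem_sball.1 a2).2 h
        · exact h₀ _ _ (mem_sball.1 a1).2 (mem_sball.1 a2).2 h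
    _ ≤ _ := by
        rw [← Finset.sum_fiberwise_of_maps_to hmap]
        refine Finset.sum_le_sum fun l hl => ?_
        rw [Finset.sum_congr rfl (g := fun _ => w l) fun p hp => by rw [(Finset.mem_filter.1 hp).2],
          Finset.sum_const, nsmul_eq_mul, ← card_anti (mem_sball.1 hl).2.1]
        refine mul_le_mul_of_nonneg_right (Nat.cast_le.2 (Finset.card_le_card fun p hp => ?_)) (hw l)
        obtain ⟨a1, a2⟩ := Finset.mem_filter.1 hp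
        obtain ⟨a3, a4⟩ := Finset.mem_product.1 (Finset.mem_filter.1 a1).1
        exact mem_anti.2 ⟨(mem_sball.1 a3).2.1, (mem_sball.1 a4).2.1, a2⟩

end Crest.Agent.R12.PO
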