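import Crest.Agent.R12.PO.CubeC
import Crest.Agent.R12.PO.Comb

/-! Row 12, block PO: the cube rows on the line `Re s = 1/20` (`a = 1`).  Prefix for helper lemmas: `cd_`. -/

set_option autoImplicit false

namespace Crest.Agent.R12.PO

open Crest.Agent.R17 Complex MeasureTheory
open scoped Real ComplexConjugate

/-- as `CS_asymp`, on the line `1/20`; the Gaussian `LNt 1` absorbs the growth of `RK` (`polyOn_RK`) and of
`E` (`ExpOn`), `integrable_gauss_exp` -/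
theorem CS_asymp2 : ∃ C : ℝ, 0 < C ∧ ∀ (y : ℝ) (q : O), 0 < y → PSq q →
    ‖CS 1 q y - ((2 * π / (3 * √3) * Phi q * y ^ (-(1 / 3) : ℝ) : ℝ) : ℂ) * kw 1 (1 / 3)‖ ≤
      C * dn q * y ^ (-(1 / 20) : ℝ) := by
  obtain ⟨E, C₀, hC₀, hEd, hE1, hE2, hE3, hE4⟩ := exists_zeta
  have hE' : ExpOn (1 / 20) 2 fun s => E (3 * s) := by
    obtain ⟨C', A', h'⟩ := hE3 (3 / 20) 6
    refine ⟨C', 3 * A', fun s hs => (h' (3 * s) ⟨?_, ?_⟩).trans (le_of_eq ?_)⟩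
    · have := hs.1; simp; linarith
    · have := hs.2; simp; linarith
    · congr 2
      simp [abs_mul]
      ring
  have hI : VInt (1 / 20) fun s => LNt 1 (s + -1) * (RK s * E (3 * s) / (s - 1 / 3)) := by
    obtain ⟨C, A, -, -, hR⟩ := polyOn_RK.2 (1 / 20) 2 (by norm_num)
    refine (VI_shift_LNt_pole (ρ := 1 / 3) (σ₂ := 2) (G := fun s => RK s * E (3 * s)) one_pos (-1)
      (by norm_num) (by norm_num) ?_ ((ExpOn.of_poly hR).mul hE')).1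
    refine (polyOn_RK.1.mono fun s hs => ?_).mul
      (hEd.comp (differentiable_id.const_mul 3)).differentiableOn
    exact lt_of_lt_of_le (by norm_num) hs.1
  set J : ℝ := ∫ t : ℝ, ‖LNt 1 (((1 / 20 : ℝ) : ℂ) + t * I + -1) * (RK (((1 / 20 : ℝ) : ℂ) + t * I) *
    E (3 * (((1 / 20 : ℝ) : ℂ) + t * I)) / (((1 / 20 : ℝ) : ℂ) + t * I - 1 / 3))‖ with hJ
  have hJ0 : 0 ≤ J := integral_nonneg fun _ => norm_nonneg _
  refine ⟨1 / (2 * π) * J + 1, by positivity, fun y q hy hq => ?_⟩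
  have ha : (0 : ℝ) < 1 := one_pos
  set Pq : ℂ → ℂ := fun s => ∏ p ∈ pfs q, (1 - (nm p : ℂ) ^ (-(3 * s))) with hPq
  set G : ℂ → ℂ := fun s => RK s * ((y : ℂ) ^ (-s) * (E (3 * s) * (1 / 3 * Pq s))) with hG
  have hy0 : (y : ℂ) ≠ 0 := ofReal_ne_zero.2 hy.ne'
  have hPd : Differentiable ℂ Pq := by
    refine Differentiable.fun_finsetProd fun p hp => ?_
    have h0 : (nm p : ℂ) ≠ 0 := ofReal_ne_zero.2 (nm_pos (pra_of_mem_pfs hp).1.ne_zero).ne'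
    exact (differentiable_const _).sub
      (((differentiable_id.const_mul 3).neg).const_cpow (Or.inl h0))
  have hGd : DifferentiableOn ℂ G (strip (1 / 20) 2) := by
    refine (polyOn_RK.1.mono fun s hs => ?_).mul (Differentiable.differentiableOn ?_)
    · exact lt_of_lt_of_le (by norm_num) hs.1
    · exact (differentiable_id.neg.const_cpow (Or.inl hy0)).mul
        ((hEd.comp (differentiable_id.const_mul 3)).mul (hPd.const_mul _))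
  have hGe : ExpOn (1 / 20) 2 G := by
    obtain ⟨C, A, -, -, hR⟩ := polyOn_RK.2 (1 / 20) 2 (by norm_num)
    refine (ExpOn.of_poly hR).mul (ExpOn.mul ?_ (ExpOn.mul ?_ (ExpOn.of_bdd (B := dn q) ?_)))
    · simpa using expOn_cpow hy (1 / 20) 2 (-1) 0
    · obtain ⟨C', A', h'⟩ := hE3 (3 / 20) 6
      refine ⟨C', 3 * A', fun s hs => (h' (3 * s) ⟨?_, ?_⟩).trans (le_of_eq ?_)⟩
      · have := hs.1; simp; linarith
      · have := hs.2; simp; linarith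
      · congr 2
        simp [abs_mul]
        ring
    · intro s hs
      have h1 := cq_prod hq (s := s) (le_trans (by norm_num) hs.1)
      rw [norm_mul]
      refine (mul_le_of_le_one_left (norm_nonneg _) ?_).trans h1
      norm_num
  have hsh := (VI_shift_LNt_pole (ρ := 1 / 3) ha (-1) (by norm_num) (by norm_num) hGd hGe).2.2
  have hL : ∀ s : ℂ, LNt 1 (s + -1) = LNt 1 (1 - s) := fun s => by
    rw [← LNt_neg]; congr 1; ring
  have key : ∀ s : ℂ, s ≠ 1 / 3 → LNt 1 (s + -1) * (G s / (s - 1 / 3)) =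
      kw 1 s * ((y : ℂ) ^ (-s) * (E (3 * s) / (3 * s - 1) * Pq s)) := by
    intro s hs
    have h1 : s - 1 / 3 ≠ 0 := sub_ne_zero.2 hs
    have h2 : 3 * s - 1 = 3 * (s - 1 / 3) := by ring
    rw [hL, kw, hG, h2]
    field_simp
  have e1 : CS 1 q y = VI 2 fun s => LNt 1 (s + -1) * (G s / (s - 1 / 3)) := by
    rw [CS_eq_VI ha hy]
    refine VI_congr fun s hs => ?_
    have h3 : 1 < (3 * s).re := by simp [hs]; norm_num
    have h4 : 3 * s - 1 ≠ 0 := fun h => by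
      rw [sub_eq_zero.1 h] at h3
      simp at h3
    rw [key s (fun h => by rw [h] at hs; norm_num at hs), ZD_one hq h3, hE1 _ h3,
      mul_div_cancel_left₀ _ h4, mul_assoc]
  have e2 : LNt 1 (1 / 3 + -1) * G (1 / 3) =
      ((2 * π / (3 * √3) * Phi q * y ^ (-(1 / 3) : ℝ) : ℝ) : ℂ) * kw 1 (1 / 3) := by
    have h1 : (3 : ℂ) * (1 / 3) = 1 := by norm_num
    have h2 : Pq (1 / 3) = (Phi q : ℂ) := by
      simp only [hPq, h1, Phi, cpow_neg_one]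
      push_cast
      rfl
    have h3 : ((y ^ (-(1 / 3) : ℝ) : ℝ) : ℂ) = (y : ℂ) ^ (-(1 / 3 : ℂ)) := by
      rw [ofReal_cpow hy.le]
      push_cast
      rfl
    rw [hL, kw]
    simp only [hG]
    rw [h1, hE2, h2, ofReal_mul, ofReal_mul, h3]
    push_cast
    ring
  rw [e1, hsh, e2, add_sub_cancel_right]
  have hdn : 0 ≤ dn q := Nat.cast_nonneg _
  have hy2 : 0 ≤ y ^ (-(1 / 20) : ℝ) := by positivity
  refine (norm_VI_le (hI.norm.const_mul (dn q * y ^ (-(1 / 20) : ℝ))) fun t => ?_).trans ?_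
  · have hs : (((1 / 20 : ℝ) : ℂ) + t * I).re = 1 / 20 := by simp
    generalize ((1 / 20 : ℝ) : ℂ) + t * I = s at hs
    have h2 := cq_prod hq (s := s) (by rw [hs]; norm_num)
    have h3 : LNt 1 (s + -1) * (G s / (s - 1 / 3)) =
        (1 / 3 * Pq s * (y : ℂ) ^ (-s)) * (LNt 1 (s + -1) * (RK s * E (3 * s) / (s - 1 / 3))) := by
      simp only [hG]
      ring
    rw [h3, norm_mul]
    refine mul_le_mul_of_nonneg_right ?_ (norm_nonneg _)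
    rw [norm_mul, norm_mul, norm_cpow_eq_rpow_re_of_pos hy, neg_re, hs]
    refine mul_le_mul_of_nonneg_right ((mul_le_of_le_one_left (norm_nonneg _) ?_).trans h2) hy2
    norm_num
  · rw [integral_const_mul, ← hJ]
    have := mul_nonneg hdn hy2
    nlinarith

theorem err_le2 {A B g r₁ r₂ : ℝ} (hA : 0 < A) (hB : 0 < B) (hg : 0 < g) (h₁ : B < g * r₁)
    (h₂ : B < g * r₂) :
    A / (27 * √(r₁ * r₂)) * (g * A / (9 * (r₁ * r₂))) ^ (-(1 / 20) : ℝ) ≤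
      A ^ (19 / 20 : ℝ) * B ^ (-(9 / 10) : ℝ) * g ^ (17 / 20 : ℝ) := by
  have hr₁ : 0 < r₁ := cc_pos hg (hB.trans h₁)
  have hr₂ : 0 < r₂ := cc_pos hg (hB.trans h₂)
  obtain ⟨a, rfl⟩ : ∃ a, A = Real.exp a := ⟨_, (Real.exp_log hA).symm⟩
  obtain ⟨β, rfl⟩ : ∃ a, B = Real.exp a := ⟨_, (Real.exp_log hB).symm⟩
  obtain ⟨γ, rfl⟩ : ∃ a, g = Real.exp a := ⟨_, (Real.exp_log hg).symm⟩
  obtain ⟨p, rfl⟩ : ∃ a, r₁ = Real.exp a := ⟨_, (Real.exp_log hr₁).symm⟩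
  obtain ⟨q, rfl⟩ : ∃ a, r₂ = Real.exp a := ⟨_, (Real.exp_log hr₂).symm⟩
  obtain ⟨n, hn⟩ : ∃ a, (9 : ℝ) = Real.exp a := ⟨_, (Real.exp_log (by norm_num)).symm⟩
  obtain ⟨m, hm⟩ : ∃ a, (27 : ℝ) = Real.exp a := ⟨_, (Real.exp_log (by norm_num)).symm⟩
  have hn0 : 0 ≤ n := by
    rw [← Real.exp_le_exp, ← hn, Real.exp_zero]; norm_num
  have hnm : n ≤ m := by
    rw [← Real.exp_le_exp, ← hn, ← hm]; norm_num
  rw [← Real.exp_add, Real.exp_lt_exp] at h₁ h₂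
  rw [show (-(9 / 10) : ℝ) = -1 + 1 / 10 by norm_num, cc_sqrt, hn, hm, cc_arg, ← Real.exp_mul, ← Real.exp_mul, ← Real.exp_mul, ← Real.exp_mul,
    ← Real.exp_add, ← Real.exp_sub, ← Real.exp_add, ← Real.exp_add, ← Real.exp_add, Real.exp_le_exp]
  linarith

/-- as `cube_le` -/
theorem cube_le2 : ∃ C : ℝ, 0 < C ∧ ∀ (A B : ℝ) (g n₁ n₂ : O), 0 < A → 0 < B →
    Tri g n₁ n₂ → B < nm (g * n₁) → B < nm (g * n₂) →
    ‖DU Cube 1 A g n₁ n₂ - ((cP ^ 2 * rho0 * A ^ (2 / 3 : ℝ) : ℝ) : ℂ) * LNt 1 (2 / 3) *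
        ((n6 (g * n₁) * n6 (g * n₂) * Phi (g * n₁ * (g * n₂)) : ℝ) : ℂ)‖ ≤
      C * (A ^ (19 / 20 : ℝ) * B ^ (-(9 / 10) : ℝ)) * (nm g ^ (17 / 20 : ℝ) * (dn n₁ * dn n₂)) := by
  obtain ⟨C, hC, hCS⟩ := CS_asymp2
  refine ⟨C, hC, fun A B g n₁ n₂ hA hB h hB₁ hB₂ => ?_⟩
  have hg := nm_pos h.hg.ne_zero
  have h1 := nm_pos h.h₁.ne_zero
  have h2 := nm_pos h.h₂.ne_zero
  have hq : PSq (n₁ * n₂) := ⟨h.h₁.1.mul h.h₂.1, squarefree_mul_iff.2 ⟨h.c.isRelPrime, h.h₁.2, h.h₂.2⟩⟩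
  have hy : 0 < nm g * A / (9 * (nm n₁ * nm n₂)) := by positivity
  have hb := hCS _ (n₁ * n₂) hy hq
  rw [nm_mul] at hB₁ hB₂
  have hm := main_eq hA hg h1 h2
  have he := err_le2 hA hB hg hB₁ hB₂
  set y : ℝ := nm g * A / (9 * (nm n₁ * nm n₂)) with hy_def
  set Z : ℝ := A / (27 * √(nm n₁ * nm n₂)) with hZ
  have hZ0 : 0 ≤ Z := by positivity
  have hk : kw 1 (1 / 3) = LNt 1 (2 / 3) * (((9 : ℝ) ^ (2 / 3 : ℝ) * cP ^ 2 : ℝ) : ℂ) := by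
    rw [kw, RK_third]
    norm_num
  have hreal : cP ^ 2 * rho0 * A ^ (2 / 3 : ℝ) * (n6 (g * n₁) * n6 (g * n₂) * Phi (g * n₁ * (g * n₂))) =
      Phi g * Z * (2 * π / (3 * √3) * Phi (n₁ * n₂) * y ^ (-(1 / 3) : ℝ)) *
        ((9 : ℝ) ^ (2 / 3 : ℝ) * cP ^ 2) := by
    rw [cc_Phi h, n6, n6, nm_mul, nm_mul]
    linear_combination (-(cP ^ 2 * Phi g * Phi (n₁ * n₂))) * hm
  have hmain : ((cP ^ 2 * rho0 * A ^ (2 / 3 : ℝ) : ℝ) : ℂ) * LNt 1 (2 / 3) *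
        ((n6 (g * n₁) * n6 (g * n₂) * Phi (g * n₁ * (g * n₂)) : ℝ) : ℂ) =
      ((Phi g * Z : ℝ) : ℂ) *
        (((2 * π / (3 * √3) * Phi (n₁ * n₂) * y ^ (-(1 / 3) : ℝ) : ℝ) : ℂ) * kw 1 (1 / 3)) := by
    rw [hk, mul_right_comm, ← Complex.ofReal_mul, hreal, Complex.ofReal_mul, Complex.ofReal_mul]
    ring
  rw [DU_cube h one_pos hA, hmain, ← mul_sub, norm_mul, Complex.norm_real, Real.norm_eq_abs,
    abs_of_nonneg (mul_nonneg (Phi_pos g).le hZ0)]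
  have hy4 : 0 ≤ y ^ (-(1 / 20) : ℝ) := by positivity
  have hd : 0 ≤ dn n₁ * dn n₂ := mul_nonneg (dn_nonneg _) (dn_nonneg _)
  calc _ ≤ (1 * Z) * (C * (dn n₁ * dn n₂) * y ^ (-(1 / 20) : ℝ)) := by
        refine mul_le_mul (mul_le_mul_of_nonneg_right (Phi_le_one g) hZ0) (hb.trans ?_)
          (norm_nonneg _) (by positivity)
        exact mul_le_mul_of_nonneg_right (mul_le_mul_of_nonneg_left (dn_mul_le _ _) hC.le) hy4
    _ = C * (dn n₁ * dn n₂) * (Z * y ^ (-(1 / 20) : ℝ)) := by ring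
    _ ≤ C * (dn n₁ * dn n₂) * (A ^ (19 / 20 : ℝ) * B ^ (-(9 / 10) : ℝ) * nm g ^ (17 / 20 : ℝ)) :=
        mul_le_mul_of_nonneg_left he (mul_nonneg hC.le hd)
    _ = _ := by ring

/-- as `norm_SG_le_CR` -/
theorem norm_SG_le_CR2 {γ : O → ℂ} {B X : ℝ} (hγ : Supp γ B X) {F : O → O → O → ℂ} {M : ℝ} (hM : 0 ≤ M)
    (h : ∀ g n₁ n₂, Tri g n₁ n₂ → B < nm (g * n₁) → B < nm (g * n₂) →
      ‖F g n₁ n₂‖ ≤ M * (nm g ^ (17 / 20 : ℝ) * (dn n₁ * dn n₂))) : ‖SG γ X F‖ ≤ M * CR2 γ X := by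
  unfold SG CR2
  refine (norm_sum_le _ _).trans ?_
  rw [Finset.mul_sum]
  refine Finset.sum_le_sum fun g hg => ?_
  have hg' := (mem_sball.1 hg).2
  have hp : 0 ≤ nm g ^ (17 / 20 : ℝ) := Real.rpow_nonneg (nm_nonneg g) _
  have hd : 1 ≤ dn g := one_le_dn hg'.ne_zero
  rw [sq, Finset.sum_mul_sum, Finset.mul_sum, Finset.mul_sum]
  refine (norm_sum_le _ _).trans (Finset.sum_le_sum fun n₁ _ => ?_)
  rw [Finset.mul_sum, Finset.mul_sum]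
  refine (norm_sum_le _ _).trans (Finset.sum_le_sum fun n₂ _ => ?_)
  have d₁ := dn_nonneg n₁
  have d₂ := dn_nonneg n₂
  have h0 : 0 ≤ M * (nm g ^ (17 / 20 : ℝ) * dn g *
      (‖γ (g * n₁)‖ * dn n₁ * (‖γ (g * n₂)‖ * dn n₂))) := by positivity
  split_ifs with hc
  · by_cases h₁ : γ (g * n₁) = 0
    · simp [h₁]
    by_cases h₂ : γ (g * n₂) = 0
    · simp [h₂]
    have hF := h g n₁ n₂ (tri_of_ne hγ hg' hc h₁ h₂) (hγ _ h₁).2.1 (hγ _ h₂).2.1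
    rw [norm_mul, norm_mul, RCLike.norm_conj]
    calc ‖γ (g * n₁)‖ * ‖γ (g * n₂)‖ * ‖F g n₁ n₂‖
        ≤ ‖γ (g * n₁)‖ * ‖γ (g * n₂)‖ * (M * (nm g ^ (17 / 20 : ℝ) * (dn n₁ * dn n₂))) := by gcongr
      _ = M * (nm g ^ (17 / 20 : ℝ) * 1 * (‖γ (g * n₁)‖ * dn n₁ * (‖γ (g * n₂)‖ * dn n₂))) := by ring
      _ ≤ _ := by gcongr
  · rwa [norm_zero]

end Crest.Agent.R12.PO
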