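import Crest.Agent.R12.PO.RowBd
import Crest.Agent.R12.PO.Comb

/-! Row 12, block PO: the off-diagonal bound.  Prefix for helper lemmas: `of_`. -/

set_option autoImplicit false

namespace Crest.Agent.R12.PO

open Crest.Agent.R17 Complex MeasureTheory
open scoped Real ComplexConjugate

open Classical in
theorem of_a_term (ok : O → Prop) (a X Y : ℝ) (γ : O → ℂ) {g : O} (j h k : O) (hg : g ≠ 0) :
    ∑ n₁ ∈ ball X, ∑ n₂ ∈ ball X, γ (g * j * n₁) * conj (γ (g * j * n₂)) *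
        DT ok a Y h (j * n₁) (j * n₂) k =
      if k ≠ 0 ∧ ok (k * h) then
        (eQ k 3 * (cb (k * h) j * conj (cb (k * h) j))) * PS2 a γ X (g * j) h Y (nm g ^ 2) k else 0 := by
  have hg' : nm g ≠ 0 := (nm_pos hg).ne'
  unfold DT
  split_ifs with hk
  · unfold PS2
    rw [Finset.mul_sum]
    refine Finset.sum_congr rfl fun n₁ _ => ?_
    rw [Finset.mul_sum]
    refine Finset.sum_congr rfl fun n₂ _ => ?_
    have e : nm (g * j * n₁) * nm (g * j * n₂) / nm g ^ 2 = nm (j * n₁) * nm (j * n₂) := by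
      rw [mul_assoc g, mul_assoc g, nm_mul g, nm_mul g]
      field_simp
    rw [e, cb_mul_right, cb_mul_right, map_mul]
    ring
  · simp

/-- Exchange the finite sums with `∑' k` (`summable_DT`, `Summable.tsum_finsetSum`); the `k`-th term is
`u k * PS2 a γ X (g j) h Y (N g ^ 2) k` for `k ≠ 0`, `ok (k h)` and `0` otherwise,
`u k = eQ k 3 * (cb (k h) j * conj (cb (k h) j))` (`cb_mul_right`); bound the partial sums by `rows_le`
(filter the finite set) and pass to the limit (`le_of_tendsto'`, `HasSum`). -/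
theorem one_label (ν : ℕ) : ∃ C : ℝ, 0 < C ∧ ∀ (ok : O → Prop) (a B K X Y : ℝ) (γ : O → ℂ)
    (φ₁ φ₂ : O → ℝ) (g j h : O), 0 < a → a ≤ 1 → 0 < B → 0 < K → 0 < Y →
    0 ≤ φ₁ (g * j) → 0 ≤ φ₂ (g * j) → RowBd ok γ X B K ν φ₁ φ₂ → PSq (g * j) → nm (g * j) ≤ X → Prim h →
    h ∣ (g * j) ^ 4 →
    ‖∑ n₁ ∈ ball X, ∑ n₂ ∈ ball X, γ (g * j * n₁) * conj (γ (g * j * n₂)) *
        ∑' k : O, DT ok a Y h (j * n₁) (j * n₂) k‖ ≤
      C * (a ^ ν)⁻¹ * (a * nm g / B) * RR (φ₁ (g * j)) (φ₂ (g * j)) K (B ^ 2 / (a ^ 2 * Y * nm g ^ 2)) := by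
  classical
  obtain ⟨C, hC, H⟩ := rows_le ν
  refine ⟨C, hC, ?_⟩
  intro ok a B K X Y γ φ₁ φ₂ g j h ha ha1 hB hK hY h₁ h₂ hR hl hlX hh hd
  have hg : g ≠ 0 := left_ne_zero_of_mul hl.1.ne_zero
  have hgp : 0 < nm g := nm_pos hg
  have hu : ∀ k : O, ‖eQ k 3 * (cb (k * h) j * conj (cb (k * h) j))‖ ≤ 1 := by
    intro k
    rw [norm_mul, norm_mul, norm_eQ, one_mul, Complex.norm_conj]
    exact mul_le_one₀ (norm_cb_le _ _) (norm_nonneg _) (norm_cb_le _ _)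
  have hs : HasSum (fun k : O => ∑ n₁ ∈ ball X, ∑ n₂ ∈ ball X, γ (g * j * n₁) * conj (γ (g * j * n₂)) *
      DT ok a Y h (j * n₁) (j * n₂) k)
      (∑ n₁ ∈ ball X, ∑ n₂ ∈ ball X, γ (g * j * n₁) * conj (γ (g * j * n₂)) *
        ∑' k : O, DT ok a Y h (j * n₁) (j * n₂) k) :=
    hasSum_sum fun n₁ _ => hasSum_sum fun n₂ _ =>
      (summable_DT ok ha hY h (j * n₁) (j * n₂)).hasSum.mul_left _
  refine le_of_tendsto' (Filter.Tendsto.norm hs) fun S => ?_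
  have key := H ok a B K X Y (nm g ^ 2) γ (fun k => eQ k 3 * (cb (k * h) j * conj (cb (k * h) j))) φ₁ φ₂
    (g * j) h (S.filter fun k => k ≠ 0 ∧ ok (k * h)) ha ha1 hB hK hY (by positivity) h₁ h₂ hR hl hlX hh hd hu
    (fun k hk => (Finset.mem_filter.1 hk).2)
  rw [Real.sqrt_sq hgp.le, Finset.sum_filter] at key
  refine le_of_eq_of_le ?_ key
  congr 1
  refine Finset.sum_congr rfl fun k _ => ?_
  convert of_a_term ok a X Y γ j h k hg

theorem of_b_third {c u l : ℝ} (hc : 0 ≤ c) (hu : 0 ≤ u) (h : c ^ 3 * u ≤ l) :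
    c * u ^ (1 / 3 : ℝ) ≤ l ^ (1 / 3 : ℝ) := by
  have h1 : c = (c ^ 3) ^ (1 / 3 : ℝ) := by
    rw [← Real.rpow_natCast, ← Real.rpow_mul hc]; norm_num
  calc c * u ^ (1 / 3 : ℝ) = (c ^ 3 * u) ^ (1 / 3 : ℝ) := by
        rw [Real.mul_rpow (by positivity) hu, ← h1]
    _ ≤ l ^ (1 / 3 : ℝ) := Real.rpow_le_rpow (by positivity) h (by norm_num)

theorem of_b_half {c u : ℝ} (hc : 0 ≤ c) (hu : 0 ≤ u) (h : c ^ 2 * u ≤ 1 / 9) :
    c * u ^ (1 / 2 : ℝ) ≤ 1 / 3 := by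
  have h2 : (u ^ (1 / 2 : ℝ)) ^ 2 = u := by
    rw [← Real.rpow_natCast, ← Real.rpow_mul hu]; norm_num
  have h3 : 0 ≤ c * u ^ (1 / 2 : ℝ) := by positivity
  have h4 : (c * u ^ (1 / 2 : ℝ)) ^ 2 ≤ (1 / 3) ^ 2 := by rw [mul_pow, h2]; linarith
  exact (pow_le_pow_iff_left₀ h3 (by norm_num) two_ne_zero).1 h4

/-- `U / K = 9 e / g² ≤ 9`; `(g/e) (e/g²)^(1/3) ≤ g^(1/3)`, `(g/e) (e/g²)^(1/2) ≤ 1`,
`(e/g²)^(5/2) ≤ (e/g²)^(1/2)` -/
theorem pref_le {a A B e g l p₁ p₂ : ℝ} (ha : 0 < a) (hA : 0 < A) (hB : 0 < B) (he : 1 ≤ e) (heg : e ≤ g)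
    (hgl : g ≤ l) (h₁ : 0 ≤ p₁) (h₂ : 0 ≤ p₂) :
    A / (9 * e) * (a * g / B) * RR p₁ p₂ (B ^ 2 / (a ^ 2 * A)) (B ^ 2 / (a ^ 2 * (A / (9 * e)) * g ^ 2)) ≤
      30 * (a * A / B) * (l ^ (1 / 3 : ℝ) * p₁ + p₂) := by
  have he0 : 0 < e := by linarith
  have hg0 : 0 < g := by linarith
  have hu : B ^ 2 / (a ^ 2 * (A / (9 * e)) * g ^ 2) / (B ^ 2 / (a ^ 2 * A)) = 9 * e / g ^ 2 := by
    field_simp
  unfold RR
  rw [hu]
  set u := 9 * e / g ^ 2 with hudef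
  have hu0 : 0 < u := by positivity
  have hu9 : u ≤ 9 := by
    rw [hudef, div_le_iff₀ (by positivity)]; nlinarith
  set c := g / (9 * e) with hc
  have hc0 : 0 ≤ c := by positivity
  have k1 : c * u ^ (1 / 3 : ℝ) ≤ l ^ (1 / 3 : ℝ) := by
    refine of_b_third hc0 hu0.le ?_
    have : c ^ 3 * u = g / (81 * e ^ 2) := by rw [hc, hudef]; field_simp; norm_num
    rw [this]
    refine le_trans ?_ hgl
    exact div_le_self hg0.le (by nlinarith)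
  have k2 : c * u ^ (1 / 2 : ℝ) ≤ 1 / 3 := by
    refine of_b_half hc0 hu0.le ?_
    have : c ^ 2 * u = 1 / (9 * e) := by rw [hc, hudef]; field_simp
    rw [this]
    exact one_div_le_one_div_of_le (by norm_num) (by linarith)
  have k3 : c * u ^ (5 / 2 : ℝ) ≤ 27 := by
    have : u ^ (5 / 2 : ℝ) = u ^ (1 / 2 : ℝ) * u ^ 2 := by
      rw [show (5 / 2 : ℝ) = 1 / 2 + (2 : ℕ) by norm_num, Real.rpow_add hu0, Real.rpow_natCast]
    rw [this, ← mul_assoc]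
    have h5 : u ^ 2 ≤ 81 := by nlinarith
    calc c * u ^ (1 / 2 : ℝ) * u ^ 2 ≤ 1 / 3 * 81 := mul_le_mul k2 h5 (by positivity) (by norm_num)
      _ = 27 := by norm_num
  have hl3 : 0 ≤ l ^ (1 / 3 : ℝ) := Real.rpow_nonneg (by linarith) _
  have e1 : A / (9 * e) * (a * g / B) * (p₁ * u ^ (1 / 3 : ℝ) + p₂ * (u ^ (1 / 2 : ℝ) + u ^ (5 / 2 : ℝ))) =
      (a * A / B) * (p₁ * (c * u ^ (1 / 3 : ℝ)) + p₂ * (c * u ^ (1 / 2 : ℝ) + c * u ^ (5 / 2 : ℝ))) := by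
    rw [hc]; field_simp
  rw [e1, mul_comm 30, mul_assoc]
  refine mul_le_mul_of_nonneg_left ?_ (by positivity)
  nlinarith [mul_le_mul_of_nonneg_left k1 h₁, mul_le_mul_of_nonneg_left k2 h₂,
    mul_le_mul_of_nonneg_left k3 h₂, mul_nonneg hl3 h₁]

/-- `SG_mob`, unfold `DU` and move the sum over `e` outside, `one_label`, `pref_le`, `sum_lab` with
`w l = C (a^ν)⁻¹ (a A / B) dn l (…)` (`dn_le_of_dvd`); if `g j ∉ sball X` then `γ (g j n) = 0` for all `n`. -/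
theorem off_le (ν : ℕ) : ∃ C : ℝ, 0 < C ∧ ∀ (ok : O → Prop) (a A B X : ℝ) (γ : O → ℂ) (φ₁ φ₂ : O → ℝ),
    0 < a → a ≤ 1 → 0 < A → 0 < B → Supp γ B X → (∀ l, 0 ≤ φ₁ l) → (∀ l, 0 ≤ φ₂ l) →
    RowBd ok γ X B (B ^ 2 / (a ^ 2 * A)) ν φ₁ φ₂ →
    ‖SG γ X (DU ok a A)‖ ≤ C * OD a A B X ν φ₁ φ₂ := by
  obtain ⟨C, hC, h1⟩ := one_label ν
  refine ⟨30 * C, by positivity, fun ok a A B X γ φ₁ φ₂ ha ha1 hA hB hγ hφ₁ hφ₂ hR => ?_⟩
  rw [SG_mob hγ]
  set w : O → ℝ := fun l => 30 * C * (a ^ ν)⁻¹ * (a * A / B) * (dn l * (nm l ^ (1 / 3 : ℝ) * φ₁ l + φ₂ l))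
    with hw
  have hw0 : ∀ l, 0 ≤ w l := fun l => by
    have := dn_nonneg l
    have := hφ₁ l
    have := hφ₂ l
    have := Real.rpow_nonneg (nm_nonneg l) (1 / 3 : ℝ)
    simp only [hw]; positivity
  have key := sum_lab X (T := fun g j => ‖mu j * ∑ n₁ ∈ ball X, ∑ n₂ ∈ ball X,
      γ (g * j * n₁) * conj (γ (g * j * n₂)) * DU ok a A g (j * n₁) (j * n₂)‖) hw0 ?_ ?_
  · refine le_trans ((norm_sum_le _ _).trans (Finset.sum_le_sum fun g _ => norm_sum_le _ _)) ?_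
    refine key.trans (le_of_eq ?_)
    unfold OD
    rw [Finset.mul_sum, Finset.mul_sum]
    refine Finset.sum_congr rfl fun l _ => ?_
    simp only [hw]; ring
  · intro g j hg hj hgj
    obtain ⟨hX, hP⟩ := mem_sball.1 hgj
    have hg0 := hg.ne_zero
    have e1 : ∑ n₁ ∈ ball X, ∑ n₂ ∈ ball X,
        γ (g * j * n₁) * conj (γ (g * j * n₂)) * DU ok a A g (j * n₁) (j * n₂) =
        ∑ e ∈ pdiv g, mu e * ((A / (9 * nm e) : ℝ) : ℂ) * ∑ n₁ ∈ ball X, ∑ n₂ ∈ ball X,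
          γ (g * j * n₁) * conj (γ (g * j * n₂)) *
            ∑' k : O, DT ok a (A / (9 * nm e)) (g ^ 2 * e ^ 2) (j * n₁) (j * n₂) k := by
      unfold DU
      simp only [Finset.mul_sum]
      rw [Finset.sum_comm (s := pdiv g)]
      refine Finset.sum_congr rfl fun n₁ _ => ?_
      rw [Finset.sum_comm (s := pdiv g)]
      refine Finset.sum_congr rfl fun n₂ _ => Finset.sum_congr rfl fun e _ => ?_
      ring
    rw [e1, norm_mul]
    refine (mul_le_of_le_one_left (norm_nonneg _) (norm_mu_le j)).trans ((norm_sum_le _ _).trans ?_)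
    have hb : ∀ e ∈ pdiv g, ‖mu e * ((A / (9 * nm e) : ℝ) : ℂ) * ∑ n₁ ∈ ball X, ∑ n₂ ∈ ball X,
          γ (g * j * n₁) * conj (γ (g * j * n₂)) *
            ∑' k : O, DT ok a (A / (9 * nm e)) (g ^ 2 * e ^ 2) (j * n₁) (j * n₂) k‖ ≤
        30 * C * (a ^ ν)⁻¹ * (a * A / B) * (nm (g * j) ^ (1 / 3 : ℝ) * φ₁ (g * j) + φ₂ (g * j)) := by
      intro e he
      obtain ⟨hPe, hdvd⟩ := (mem_pdiv hg0).1 he
      have he1 := one_le_nm hPe.ne_zero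
      have hY : 0 < A / (9 * nm e) := by positivity
      have hdv : g ^ 2 * e ^ 2 ∣ (g * j) ^ 4 := by
        refine Dvd.dvd.trans ?_ (pow_dvd_pow_of_dvd (dvd_mul_right g j) 4)
        rw [show g ^ 4 = g ^ 2 * g ^ 2 by ring]
        exact mul_dvd_mul_left _ (pow_dvd_pow_of_dvd hdvd 2)
      have h2 := h1 ok a B (B ^ 2 / (a ^ 2 * A)) X (A / (9 * nm e)) γ φ₁ φ₂ g j (g ^ 2 * e ^ 2) ha ha1 hB
        (by positivity) hY (hφ₁ _) (hφ₂ _) hR hP hX ((hg.1.pow 2).mul (hPe.pow 2)) hdv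
      have h3 := pref_le (a := a) (A := A) (B := B) (e := nm e) (g := nm g) (l := nm (g * j)) ha hA hB he1
        (nm_le_of_dvd hdvd hg0) (nm_le_of_dvd (dvd_mul_right g j) hP.ne_zero) (hφ₁ (g * j)) (hφ₂ (g * j))
      rw [norm_mul, norm_mul, Complex.norm_real, Real.norm_of_nonneg hY.le]
      have h4 : ‖mu e‖ * (A / (9 * nm e)) ≤ A / (9 * nm e) := mul_le_of_le_one_left hY.le (norm_mu_le e)
      refine (mul_le_mul h4 h2 (norm_nonneg _) hY.le).trans ?_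
      have h5 := mul_le_mul_of_nonneg_left h3 (show 0 ≤ C * (a ^ ν)⁻¹ by positivity)
      refine le_trans (le_of_eq ?_) (h5.trans (le_of_eq ?_)) <;> ring
    refine (Finset.sum_le_card_nsmul _ _ _ hb).trans ?_
    rw [nsmul_eq_mul]
    have h6 : ((pdiv g).card : ℝ) ≤ dn (g * j) := dn_le_of_dvd hP.ne_zero (dvd_mul_right g j)
    have h7 : 0 ≤ 30 * C * (a ^ ν)⁻¹ * (a * A / B) *
        (nm (g * j) ^ (1 / 3 : ℝ) * φ₁ (g * j) + φ₂ (g * j)) := by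
      have := hφ₁ (g * j)
      have := hφ₂ (g * j)
      have := Real.rpow_nonneg (nm_nonneg (g * j)) (1 / 3 : ℝ)
      positivity
    refine (mul_le_mul_of_nonneg_right h6 h7).trans (le_of_eq ?_)
    simp only [hw]; ring
  · intro g j hg hj hgj
    have hz : ∀ n, γ (g * j * n) = 0 := by
      intro n
      by_contra hn
      obtain ⟨hP, -, hX⟩ := hγ _ hn
      refine hgj (mem_sball.2 ⟨(nm_le_of_dvd (dvd_mul_right _ n) hP.ne_zero).trans hX,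
        hg.1.mul hj.1, hP.2.squarefree_of_dvd (dvd_mul_right _ n)⟩)
    simp [hz]

end Crest.Agent.R12.PO
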