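import Crest.Agent.R12.PO.Pair
import Crest.Agent.R12.PO.Off
import Crest.Agent.R12.PO.CubeD

/-! Row 12, block PO: `stPO`, `stPOc`, `stPOd`. -/

set_option autoImplicit false

namespace Crest.Agent.R12

open Crest.Agent.R17 Crest.Agent.R12.PO Complex MeasureTheory
open scoped Real ComplexConjugate

open Classical in
theorem po_EN {a A B X : ℝ} {γ : O → ℂ} (ha : 0 < a) (hA : 0 < A) (hγ : Supp γ B X) :
    (EN a A γ X : ℂ) =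
      SG γ X (fun g n₁ n₂ => if n₁ = 1 ∧ n₂ = 1 then ((rho0 * A : ℝ) : ℂ) * LNt a 1 * (Phi g : ℂ) else 0) +
        SG γ X (DU (fun _ => True) a A) := by
  rw [EN_eq ha hA, SG_gcd hγ, ← SG_add]
  exact SG_congr hγ fun g n₁ n₂ h => TP_eq h ha hA

theorem po_diag : ∃ C : ℝ, 0 < C ∧ ∀ a A : ℝ, 0 < a → a ≤ 1 → 0 < A →
    ‖((rho0 * A : ℝ) : ℂ) * LNt a 1‖ ≤ C * (a * A) := by
  refine ⟨rho0 * (√(2 * π) * Real.exp (1 / 2)), by have := rho0_pos; positivity, fun a A ha h1 hA => ?_⟩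
  have hr := rho0_pos
  rw [norm_mul, norm_LNt ha.le, Complex.norm_real, Real.norm_of_nonneg (by positivity)]
  have h2 : Real.exp (a ^ 2 * (1 : ℂ).re ^ 2 / 2) ≤ Real.exp (1 / 2) := by
    refine Real.exp_le_exp.2 ?_
    simp only [one_re]
    nlinarith
  have h3 : Real.exp (-(a ^ 2 / 2) * (1 : ℂ).im ^ 2) = 1 := by simp
  rw [h3]
  calc rho0 * A * (√(2 * π) * a * Real.exp (a ^ 2 * (1 : ℂ).re ^ 2 / 2) * 1)
      ≤ rho0 * A * (√(2 * π) * a * Real.exp (1 / 2) * 1) := by gcongr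
    _ = _ := by ring

theorem po_OD_nonneg {a A B X : ℝ} {ν : ℕ} {φ₁ φ₂ : O → ℝ} (ha : 0 < a) (hA : 0 < A) (hB : 0 < B)
    (h₁ : ∀ l, 0 ≤ φ₁ l) (h₂ : ∀ l, 0 ≤ φ₂ l) : 0 ≤ OD a A B X ν φ₁ φ₂ := by
  unfold OD
  refine mul_nonneg (by positivity) (Finset.sum_nonneg fun l _ => ?_)
  have := h₁ l
  have := h₂ l
  have := nm_nonneg l
  positivity

theorem po_CR_nonneg (γ : O → ℂ) (X : ℝ) : 0 ≤ CR γ X :=
  Finset.sum_nonneg fun g _ =>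
    mul_nonneg (mul_nonneg (Real.rpow_nonneg (nm_nonneg g) _) (dn_nonneg g)) (sq_nonneg _)

theorem stPO : StPO := by
  intro ν
  obtain ⟨C₁, hC₁, h₁⟩ := po_diag
  obtain ⟨C₂, hC₂, h₂⟩ := off_le ν
  refine ⟨C₁ + C₂, fun a A B X γ φ₁ φ₂ ha ha1 hA hB hγ hφ₁ hφ₂ hR => ?_⟩
  have hA0 : 0 < A := by linarith
  have e := po_EN ha hA0 hγ
  have hd := (norm_SG_diag γ X (((rho0 * A : ℝ) : ℂ) * LNt a 1)).trans
    (mul_le_mul_of_nonneg_right (h₁ a A ha ha1 hA0) (N2_nonneg γ X))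
  have ho := h₂ _ a A B X γ φ₁ φ₂ ha ha1 hA0 hB hγ hφ₁ hφ₂ hR
  have hn : EN a A γ X ≤ ‖(EN a A γ X : ℂ)‖ := by
    rw [Complex.norm_real]; exact le_abs_self _
  have hOD := po_OD_nonneg (X := X) (ν := ν) ha hA0 hB hφ₁ hφ₂
  have hN := N2_nonneg γ X
  have hs := Real.sqrt_nonneg A
  have ht := (norm_add_le _ _).trans (add_le_add hd ho)
  rw [← e] at ht
  have p1 : 0 ≤ a * A * N2 γ X := by positivity
  have p2 : 0 ≤ √A * N2 γ X := by positivity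
  nlinarith [mul_nonneg hC₁.le p2, mul_nonneg hC₂.le p2, mul_nonneg hC₂.le p1, mul_nonneg hC₁.le hOD]

theorem po_CR2_nonneg (γ : O → ℂ) (X : ℝ) : 0 ≤ CR2 γ X :=
  Finset.sum_nonneg fun g _ =>
    mul_nonneg (mul_nonneg (Real.rpow_nonneg (nm_nonneg g) _) (dn_nonneg g)) (sq_nonneg _)

theorem po_split {a A B X : ℝ} {γ : O → ℂ} (ha : 0 < a) (hA : 0 < A) (hγ : Supp γ B X) :
    SG γ X (DU (fun _ => True) a A) = SG γ X (DU Cube a A) + SG γ X (DU (fun k => ¬ Cube k) a A) := by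
  rw [← SG_add]
  exact SG_congr hγ fun g n₁ n₂ _ => DU_split Cube ha hA g n₁ n₂

theorem po_MN {a A B X : ℝ} {γ : O → ℂ} (hγ : Supp γ B X) : MN a A γ X = SG γ X fun g n₁ n₂ =>
    ((cP ^ 2 * rho0 * A ^ (2 / 3 : ℝ) : ℝ) : ℂ) * LNt a (2 / 3) *
      ((n6 (g * n₁) * n6 (g * n₂) * Phi (g * n₁ * (g * n₂)) : ℝ) : ℂ) := by
  rw [← SG_gcd hγ fun b₁ b₂ => ((cP ^ 2 * rho0 * A ^ (2 / 3 : ℝ) : ℝ) : ℂ) * LNt a (2 / 3) *
      ((n6 b₁ * n6 b₂ * Phi (b₁ * b₂) : ℝ) : ℂ), MN, Finset.mul_sum]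
  refine Finset.sum_congr rfl fun b₁ _ => ?_
  rw [Finset.mul_sum]
  exact Finset.sum_congr rfl fun b₂ _ => by ring

theorem stPOc : StPOc := by
  intro ν
  obtain ⟨C₁, hC₁, h₁⟩ := po_diag
  obtain ⟨C₂, hC₂, h₂⟩ := off_le ν
  obtain ⟨C₃, hC₃, h₃⟩ := cube_le
  refine ⟨C₁ + C₂ + C₃, fun a A B X γ φ₁ φ₂ ha ha1 hA hB hγ hφ₁ hφ₂ hR => ?_⟩
  have hA0 : 0 < A := by linarith
  have e := po_EN ha hA0 hγ
  have e2 := po_split ha hA0 hγ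
  have e3 := po_MN (a := a) (A := A) hγ
  have hd := (norm_SG_diag γ X (((rho0 * A : ℝ) : ℂ) * LNt a 1)).trans
    (mul_le_mul_of_nonneg_right (h₁ a A ha ha1 hA0) (N2_nonneg γ X))
  have ho := h₂ _ a A B X γ φ₁ φ₂ ha ha1 hA0 hB hγ hφ₁ hφ₂ hR
  have hc := norm_SG_le_CR hγ (M := C₃ * (A ^ (3 / 4 : ℝ) * B ^ (-(1 / 2) : ℝ))) (by positivity)
    fun g n₁ n₂ h hb₁ hb₂ => h₃ a A B g n₁ n₂ ha ha1 hA0 hB h hb₁ hb₂
  rw [SG_sub, ← e3] at hc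
  have ht := (norm_add_le _ _).trans (add_le_add ((norm_add_le _ _).trans (add_le_add hd ho)) hc)
  have hOD := po_OD_nonneg (X := X) (ν := ν) ha hA0 hB hφ₁ hφ₂
  have hN := N2_nonneg γ X
  have hCR := po_CR_nonneg γ X
  have hs := Real.sqrt_nonneg A
  rw [e, e2]
  refine le_trans (le_of_eq ?_) (ht.trans ?_)
  · congr 1
    ring
  · have p1 : 0 ≤ a * A * N2 γ X := by positivity
    have p2 : 0 ≤ (√A + A ^ (2 / 3 : ℝ)) * N2 γ X := by positivity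
    have p3 : 0 ≤ A ^ (3 / 4 : ℝ) * B ^ (-(1 / 2) : ℝ) * CR γ X := by positivity
    nlinarith [mul_nonneg hC₁.le p2, mul_nonneg hC₂.le p2, mul_nonneg hC₃.le p2, mul_nonneg hC₂.le p1,
      mul_nonneg hC₃.le p1, mul_nonneg hC₁.le hOD, mul_nonneg hC₃.le hOD, mul_nonneg hC₁.le p3,
      mul_nonneg hC₂.le p3]

theorem stPOd : StPOd := by
  intro ν
  obtain ⟨C₁, hC₁, h₁⟩ := po_diag
  obtain ⟨C₂, hC₂, h₂⟩ := off_le ν
  obtain ⟨C₃, hC₃, h₃⟩ := cube_le2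
  refine ⟨C₁ + C₂ + C₃, fun A B X γ φ₁ φ₂ hA hB hγ hφ₁ hφ₂ hR => ?_⟩
  have hA0 : 0 < A := by linarith
  have e := po_EN one_pos hA0 hγ
  have e2 := po_split one_pos hA0 hγ
  have e3 := po_MN (a := 1) (A := A) hγ
  have hd := (norm_SG_diag γ X (((rho0 * A : ℝ) : ℂ) * LNt 1 1)).trans
    (mul_le_mul_of_nonneg_right (h₁ 1 A one_pos le_rfl hA0) (N2_nonneg γ X))
  have ho := h₂ _ 1 A B X γ φ₁ φ₂ one_pos le_rfl hA0 hB hγ hφ₁ hφ₂ hR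
  have hc := norm_SG_le_CR2 hγ (M := C₃ * (A ^ (19 / 20 : ℝ) * B ^ (-(9 / 10) : ℝ))) (by positivity)
    fun g n₁ n₂ h hb₁ hb₂ => h₃ A B g n₁ n₂ hA0 hB h hb₁ hb₂
  rw [SG_sub, ← e3] at hc
  have ht := (norm_add_le _ _).trans (add_le_add ((norm_add_le _ _).trans (add_le_add hd ho)) hc)
  have hOD := po_OD_nonneg (X := X) (ν := ν) one_pos hA0 hB hφ₁ hφ₂
  have hN := N2_nonneg γ X
  have hCR := po_CR2_nonneg γ X
  rw [e, e2]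
  refine le_trans (le_of_eq ?_) (ht.trans ?_)
  · congr 1
    ring
  · have p1 : 0 ≤ A * N2 γ X := by positivity
    have p3 : 0 ≤ A ^ (19 / 20 : ℝ) * B ^ (-(9 / 10) : ℝ) * CR2 γ X := by positivity
    nlinarith [mul_nonneg hC₂.le p1, mul_nonneg hC₃.le p1, mul_nonneg hC₁.le hOD, mul_nonneg hC₃.le hOD,
      mul_nonneg hC₁.le p3, mul_nonneg hC₂.le p3]

end Crest.Agent.R12
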