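import Crest.Agent.R12.PO.Ker

/-! Row 12, block PO: the cube rows, arithmetic.  Prefix for helper lemmas: `ca_`. -/

set_option autoImplicit false

namespace Crest.Agent.R12.PO

open Crest.Agent.R17 Complex MeasureTheory
open scoped Real ComplexConjugate

/-- if `k e⁴ e'² = m³` then every prime of the squarefree `e e'` divides `m`, so `m = e e' m₁`,
`k e = e' m₁³`, again `e ∣ m₁` (`Squarefree.dvd_pow_iff_dvd`, coprimality of `e`, `e'`) -/
theorem cube_iff {e e' : O} (h : PSq (e * e')) (k : O) :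
    Cube (k * ((e * e') ^ 2 * e ^ 2)) ↔ ∃ m, k = e ^ 2 * e' * m ^ 3 := by
  refine ⟨fun ⟨m, hm⟩ => ?_, fun ⟨m, hm⟩ => ⟨e ^ 2 * e' * m, by rw [hm]; ring⟩⟩
  obtain ⟨hc, hs, -⟩ := squarefree_mul_iff.1 h.2
  obtain ⟨m₁, rfl⟩ := (h.2.dvd_pow_iff_dvd three_ne_zero).1
    (⟨k * (e * e') * e ^ 2, by rw [← hm]; ring⟩ : e * e' ∣ m ^ 3)
  have h1 : k * e = e' * m₁ ^ 3 := mul_left_cancel₀
    (mul_ne_zero (pow_ne_zero 2 h.ne_zero) hs.ne_zero) (by linear_combination hm)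
  obtain ⟨m₂, rfl⟩ := (hs.dvd_pow_iff_dvd three_ne_zero).1
    (hc.dvd_of_dvd_mul_left (⟨k, by rw [← h1, mul_comm]⟩ : e ∣ e' * m₁ ^ 3))
  exact ⟨m₂, mul_right_cancel₀ hs.ne_zero (by linear_combination h1)⟩

open Classical in
/-- the map `m ↦ c m³` is three to one on non-zero elements:
`m³ - m₀³ = (m - m₀)(m - ω m₀)(m - ω² m₀)`; `HasSum.sigma` along `Equiv.sigmaFiberEquiv` -/
theorem tsum_cube {c : O} (hc : c ≠ 0) {F : O → ℂ}
    (hF : Summable fun m : O => if m ≠ 0 then F (c * m ^ 3) else 0) :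
    (∑' k : O, if k ≠ 0 ∧ ∃ m, k = c * m ^ 3 then F k else 0) =
      1 / 3 * ∑' m : O, if m ≠ 0 then F (c * m ^ 3) else 0 := by
  rw [← (hF.hasSum.tsum_fiberwise fun m => c * m ^ 3).tsum_eq, ← tsum_mul_left]
  refine tsum_congr fun k => ?_
  split_ifs with hk
  · obtain ⟨hk0, m, rfl⟩ := hk
    have hm : m ≠ 0 := fun h => hk0 (by simp [h])
    have h1 : ∀ {u v : O}, u * m = v * m → (u - v) ^ 2 ≠ -3 * om ^ 2 ∧ (u - v) ^ 2 ≠ -3 * om ∧
        (u - v) ^ 2 ≠ -3 := fun h => by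
      have h0 := isUnit_om.ne_zero
      rw [mul_right_cancel₀ hm h]
      simp [h0]
    have e : (fun m' => c * m' ^ 3) ⁻¹' {c * m ^ 3} = ({1 * m, om * m, om ^ 2 * m} : Finset O) := by
      ext x
      simp only [Set.mem_preimage, Set.mem_singleton_iff, mul_right_inj' hc, Finset.coe_insert,
        Finset.coe_singleton, Set.mem_insert_iff]
      rw [← sub_eq_zero, show x ^ 3 - m ^ 3 = (x - 1 * m) * ((x - om * m) * (x - om ^ 2 * m)) by
        linear_combination (x ^ 2 * m - x * m ^ 2) * om_sq + (m ^ 3 - x * m ^ 2) * om_cube]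
      simp only [mul_eq_zero, sub_eq_zero]
    rw [e, Finset.tsum_subtype' _ fun m => if m ≠ 0 then F (c * m ^ 3) else 0,
      Finset.sum_insert, Finset.sum_pair]
    · have h0 := isUnit_om.ne_zero
      simp only [one_mul, mul_pow, ← pow_mul, om_cube, pow_mul' om 2 3, one_pow, ne_eq, mul_eq_zero,
        hm, h0, pow_eq_zero_iff two_ne_zero, or_self, not_false_eq_true, if_true]
      ring
    · exact fun h => (h1 h).2.2 (by linear_combination (om ^ 2 - 3 * om + 3) * om_sq)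
    · simp only [Finset.mem_insert, Finset.mem_singleton, not_or]
      exact ⟨fun h => (h1 h).2.1 (by linear_combination om_sq),
        fun h => (h1 h).1 (by linear_combination (om ^ 2 - om + 1) * om_sq)⟩
  · rw [tsum_congr (g := fun _ => 0), tsum_zero, mul_zero]
    rintro ⟨m, rfl⟩
    exact if_neg fun h => hk ⟨mul_ne_zero hc (pow_ne_zero 3 h), m, rfl⟩

/-- `m³ ≡ 0, ±1 mod 3` (`exists_unit_prim`, `isUnit_iff`, `zt_cube`, `lam_sq`), `eQ_congr`, `eQ_coord_nat` -/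
theorem eQ_cube {c : O} (hc : Prim c) (m : O) : eQ (c * m ^ 3) 3 = 1 := by
  obtain ⟨x, y, rfl⟩ := exists_coord m
  obtain ⟨d, hd⟩ := hc
  have h := eQ_coord_nat (x ^ 3 + y ^ 3) 0 three_ne_zero
  rw [Nat.cast_ofNat] at h
  rw [eQ_congr (y' := ((x ^ 3 + y ^ 3 : ℤ) : O) + (0 : ℤ) * om)
    ⟨d * (x + y * om) ^ 3 + x ^ 2 * y * om + x * y ^ 2 * om ^ 2, by
      push_cast
      linear_combination (x + y * om : O) ^ 3 * hd + (y : O) ^ 3 * om_cube⟩, h]
  simp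

open Classical in
theorem summable_CS {a y : ℝ} (ha : 0 < a) (hy : 0 < y) (q : O) :
    Summable fun m : O => if m ≠ 0 ∧ IsCoprime m q then K1 a (nm m ^ 3 * y) else 0 := by
  obtain ⟨C, hC, h⟩ := norm_K1_le ha
  refine Summable.of_norm_bounded
    ((summable_nm_rpow (σ := 6) (by norm_num)).mul_left (C * y ^ (-(2 : ℝ)))) fun m => ?_
  have h0 := nm_nonneg m
  split_ifs with hm
  · have h1 := nm_pos hm.1
    refine (h _ (by positivity)).trans_eq ?_
    rw [Real.mul_rpow (by positivity) hy.le, ← Real.rpow_natCast, ← Real.rpow_mul h0,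
      show ((3 : ℕ) : ℝ) * -2 = -6 by norm_num]
    ring
  · rw [norm_zero]
    positivity

open Classical in
theorem ca_b_cb {c n : O} (hn : Prim n) (hc : IsCoprime c n) (m : O) :
    cb ((c * m) ^ 3) n = if IsCoprime m n then 1 else 0 := by
  rw [cb_pow_left _ _ three_ne_zero, cb_pow_three, IsCoprime.mul_left_iff]
  simp only [hn.coprime_three, hc, true_and]

theorem ca_b_row {e e' n₁ n₂ : O} (h : Tri (e * e') n₁ n₂) (pe : Prim e) {a A : ℝ} (ha : 0 < a)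
    (hA : 0 < A) : ∑' k : O, DT Cube a (A / (9 * nm e)) ((e * e') ^ 2 * e ^ 2) n₁ n₂ k =
      1 / 3 * (((√(nm n₁ * nm n₂) : ℝ) : ℂ)⁻¹ *
        CS a (n₁ * n₂) (nm (e * e') * A / (9 * (nm n₁ * nm n₂)))) := by
  classical
  have pe' : Prim e' := pe.of_mul h.hg.1
  have pc : Prim (e ^ 2 * e') := Pr.mul_mem (Pr.pow_mem pe 2) pe'
  have hd : e ^ 2 * e' ∣ (e * e') ^ 2 := ⟨e', by ring⟩
  have c₁ : IsCoprime (e ^ 2 * e') n₁ := (h.c₁.pow_left (m := 2)).of_isCoprime_of_dvd_left hd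
  have c₂ : IsCoprime (e ^ 2 * e') n₂ := (h.c₂.pow_left (m := 2)).of_isCoprime_of_dvd_left hd
  have h1 := nm_pos pe.ne_zero
  have h2 := nm_pos h.h₁.1.ne_zero
  have h3 := nm_pos h.h₂.1.ne_zero
  have h4 := nm_pos h.hg.1.ne_zero
  obtain ⟨F, hF⟩ : ∃ F : O → ℂ, ∀ k, F k = eQ k 3 * (cb (k * ((e * e') ^ 2 * e ^ 2)) n₁ *
      conj (cb (k * ((e * e') ^ 2 * e ^ 2)) n₂)) *
        K2 a (nm k * (A / (9 * nm e))) (nm n₁ * nm n₂) := ⟨_, fun _ => rfl⟩
  have e1 : ∀ m : O, (if m ≠ 0 then F (e ^ 2 * e' * m ^ 3) else 0) =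
      ((√(nm n₁ * nm n₂) : ℝ) : ℂ)⁻¹ * if m ≠ 0 ∧ IsCoprime m (n₁ * n₂) then
        K1 a (nm m ^ 3 * (nm (e * e') * A / (9 * (nm n₁ * nm n₂)))) else 0 := by
    intro m
    have e2 : e ^ 2 * e' * m ^ 3 * ((e * e') ^ 2 * e ^ 2) = (e ^ 2 * e' * m) ^ 3 := by ring
    have e3 : nm (e ^ 2 * e' * m ^ 3) * (A / (9 * nm e)) / (nm n₁ * nm n₂) =
        nm m ^ 3 * (nm (e * e') * A / (9 * (nm n₁ * nm n₂))) := by
      simp only [nm_mul, nm_pow]
      field_simp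
    rw [hF, eQ_cube pc, e2, ca_b_cb h.h₁.1 c₁, ca_b_cb h.h₂.1 c₂, K2, e3, IsCoprime.mul_right_iff]
    by_cases m0 : m = 0
    · simp [m0]
    · by_cases m1 : IsCoprime m n₁ <;> by_cases m2 : IsCoprime m n₂ <;> simp [m0, m1, m2]
  have hs : Summable fun m : O => if m ≠ 0 then F (e ^ 2 * e' * m ^ 3) else 0 := by
    simp only [e1]
    exact (summable_CS ha (by positivity) _).mul_left _
  have h5 := tsum_cube pc.ne_zero hs
  simp only [e1] at h5
  rw [tsum_mul_left] at h5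
  refine Eq.trans (tsum_congr fun k => ?_) h5
  rw [DT, hF]
  simp only [cube_iff h.hg]

/-- for `e ∣ g`, `g = e e'`: `cube_iff`, `tsum_cube` with `c = e² e'`, `eQ_cube`, `k h = (e² e' m)³`,
`cb_pow_left`, `cb_pow_three`; `N(e² e') A / (9 N e) = N g A / 9`; `Phi_eq_sum` -/
theorem DU_cube {g n₁ n₂ : O} (h : Tri g n₁ n₂) {a A : ℝ} (ha : 0 < a) (hA : 0 < A) :
    DU Cube a A g n₁ n₂ = ((Phi g * (A / (27 * √(nm n₁ * nm n₂))) : ℝ) : ℂ) *
      CS a (n₁ * n₂) (nm g * A / (9 * (nm n₁ * nm n₂))) := by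
  classical
  have hg0 := h.hg.1.ne_zero
  rw [DU, ofReal_mul, Phi_eq_sum hg0, Finset.sum_mul, Finset.sum_mul]
  refine Finset.sum_congr rfl fun e he => ?_
  obtain ⟨pe, e', rfl⟩ := (mem_pdiv hg0).1 he
  rw [ca_b_row h pe ha hA]
  push_cast
  ring

end Crest.Agent.R12.PO
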