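import Crest.Agent.R12.PO.Gam

/-! Row 12, block PO: the zeta function of the lattice.  Prefix for helper lemmas: `zt_`. -/

set_option autoImplicit false

namespace Crest.Agent.R12.PO

open Crest.Agent.R17 Complex MeasureTheory
open scoped Real ComplexConjugate

theorem zt_a_ZD {s : ℂ} (hs : s.re = 5 / 4) :
    ‖C.ZD (fun _ => 1) s‖ ≤ ∑' n : O, nm n ^ (-(5 / 4 : ℝ)) := by
  refine tsum_of_norm_bounded (summable_nm_rpow (σ := 5 / 4) (by norm_num)).hasSum fun n => ?_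
  rw [one_mul, norm_cpow_eq_rpow_re_of_nonneg (nm_nonneg n) (by rw [neg_re, hs]; norm_num),
    neg_re, hs]

theorem zt_a_FT : FT 1 (fun _ => (1 : ℂ)) = fun _ => 1 := by
  funext h
  unfold FT
  rw [rsum_unit isUnit_one]
  · simp
  · intro a b _
    simp only [eQ_of_dvd (one_dvd _)]

/-- `C.exists_cont` with `Q = 1`, `Ψ = 1` (`FT 1 1 = 1`, `rsum_unit`).  On `Re w = 5/4`:
`‖E w‖ ≤ C (1 + |t|)`; on `Re w = -1/4`: functional equation and `norm_RK_five`, exponent `5/2`;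
`strip_two` gives the exponent `5/2 · 1/3 + 1 · 2/3 = 3/2` on `Re w = 3/4`; `1 + |Im w| ≤ 5 ‖w - 1‖`. -/
theorem exists_zeta : ∃ (E : ℂ → ℂ) (C₀ : ℝ), 0 < C₀ ∧ Differentiable ℂ E ∧
    (∀ w : ℂ, 1 < w.re → E w = (w - 1) * C.ZD (fun _ => 1) w) ∧ E 1 = ((2 * π / √3 : ℝ) : ℂ) ∧
    (∀ σ₁ σ₂ : ℝ, ExpOn σ₁ σ₂ E) ∧
    ∀ w : ℂ, w.re = 3 / 4 → ‖E w / (w - 1)‖ ≤ C₀ * (1 + |w.im|) ^ (1 / 2 : ℝ) := by
  obtain ⟨E, hd, h1, hE1, hfe, hexp⟩ :=
    C.exists_cont (Q := 1) (Ψ := fun _ => 1) one_ne_zero (fun _ _ _ => rfl)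
  obtain ⟨C5, hC5, hRK⟩ := norm_RK_five
  obtain ⟨K, hK, hs⟩ := strip_two (σ₁ := -(1 / 4)) (σ₂ := 5 / 4) (A₁ := 5 / 2) (A₂ := 1)
    (by norm_num) (by norm_num) (by norm_num)
  set Z : ℝ := ∑' n : O, nm n ^ (-(5 / 4 : ℝ)) with hZ
  have hZ0 : 0 ≤ Z := tsum_nonneg fun n => Real.rpow_nonneg (nm_nonneg n) _
  set M : ℝ := 5 / 4 * (C5 + 1) * (Z + 1) with hM
  have hM0 : 0 < M := by positivity
  have hleft : ∀ s : ℂ, s.re = -(1 / 4) → ‖E s‖ ≤ M * (1 + |s.im|) ^ (5 / 2 : ℝ) := by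
    intro s hs
    have hre : (1 - s).re = 5 / 4 := by rw [sub_re, one_re, hs]; norm_num
    have him : |(1 - s).im| = |s.im| := by rw [sub_im, one_im, zero_sub, abs_neg]
    have h2 := hfe (1 - s) (by rw [hre]; norm_num)
    rw [sub_sub_cancel, zt_a_FT, nm_one, ofReal_one, one_cpow, mul_one] at h2
    have h3 := C.thc_norm (s := 1 - s) (r := 5 / 4) (by norm_num) hre
    have h4 := hRK (1 - s) hre
    have h5 := zt_a_ZD hre
    rw [him] at h3 h4
    have ht : 0 < 1 + |s.im| := by positivity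
    have e : (1 + |s.im|) ^ (5 / 2 : ℝ) = (1 + |s.im|) * (1 + |s.im|) ^ (3 / 2 : ℝ) := by
      rw [show (5 / 2 : ℝ) = 1 + 3 / 2 by norm_num, Real.rpow_add ht, Real.rpow_one]
    have hp : 0 < (1 + |s.im|) ^ (3 / 2 : ℝ) := Real.rpow_pos_of_pos ht _
    rw [h2, norm_mul, norm_mul, norm_neg, e]
    calc ‖1 - s‖ * ‖RK (1 - s)‖ * ‖C.ZD (fun _ => 1) (1 - s)‖
        ≤ (5 / 4 * (1 + |s.im|)) * ((C5 + 1) * (1 + |s.im|) ^ (3 / 2 : ℝ)) * (Z + 1) := by
          refine mul_le_mul (mul_le_mul h3 (h4.trans ?_) (norm_nonneg _) (by positivity))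
            (h5.trans (by linarith)) (norm_nonneg _) (by positivity)
          exact mul_le_mul_of_nonneg_right (by linarith) hp.le
      _ = M * ((1 + |s.im|) * (1 + |s.im|) ^ (3 / 2 : ℝ)) := by rw [hM]; ring
  have hright : ∀ s : ℂ, s.re = 5 / 4 → ‖E s‖ ≤ M * (1 + |s.im|) ^ (1 : ℝ) := by
    intro s hs
    have h3 : ‖s - 1‖ ≤ 1 + |s.im| := by
      have := norm_le_abs_re_add_abs_im (s - 1)
      rw [sub_re, one_re, hs, sub_im, one_im, sub_zero, abs_of_pos (by norm_num)] at this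
      linarith
    have h5 := zt_a_ZD hs
    rw [h1 s (by rw [hs]; norm_num), norm_mul, Real.rpow_one, mul_comm M]
    refine mul_le_mul h3 (h5.trans ?_) (norm_nonneg _) (by positivity)
    rw [hM]
    nlinarith [mul_nonneg hC5.le hZ0]
  refine ⟨E, 5 * (K * M), by positivity, hd, h1, ?_, hexp, fun w hw => ?_⟩
  · rw [hE1, rsum_unit isUnit_one (fun _ _ _ => rfl), nm_one]
    simp
  · have h6 := hs M E hd.differentiableOn (hexp _ _) hleft hright w
      ⟨by rw [hw]; norm_num, by rw [hw]; norm_num⟩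
    rw [hw, show (5 / 2 : ℝ) * ((5 / 4 - 3 / 4) / (5 / 4 - -(1 / 4))) +
      1 * ((3 / 4 - -(1 / 4)) / (5 / 4 - -(1 / 4))) = 1 + 1 / 2 by norm_num] at h6
    have ht : 0 < 1 + |w.im| := by positivity
    rw [Real.rpow_add ht, Real.rpow_one] at h6
    have hp : 0 < (1 + |w.im|) ^ (1 / 2 : ℝ) := Real.rpow_pos_of_pos ht _
    have h7 : |(w - 1).re| ≤ ‖w - 1‖ := abs_re_le_norm _
    have h8 : |(w - 1).im| ≤ ‖w - 1‖ := abs_im_le_norm _
    rw [sub_re, one_re, hw, abs_of_neg (by norm_num)] at h7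
    rw [sub_im, one_im, sub_zero] at h8
    have h9 : 1 + |w.im| ≤ 5 * ‖w - 1‖ := by linarith
    have h10 : 0 < ‖w - 1‖ := by linarith
    rw [norm_div, div_le_iff₀ h10]
    calc ‖E w‖ ≤ K * M * ((1 + |w.im|) * (1 + |w.im|) ^ (1 / 2 : ℝ)) := h6
      _ ≤ K * M * ((5 * ‖w - 1‖) * (1 + |w.im|) ^ (1 / 2 : ℝ)) := by gcongr
      _ = 5 * (K * M) * (1 + |w.im|) ^ (1 / 2 : ℝ) * ‖w - 1‖ := by ring

theorem zt_b_step {p m : O} (hp : Prime p) (hpm : ¬ p ∣ m) {w : ℂ} (hw : 1 < w.re) :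
    C.ZD (one (p * m)) w = C.ZD (one m) w * (1 - (nm p : ℂ) ^ (-w)) := by
  classical
  have hc : IsCoprime p m := hp.irreducible.coprime_iff_not_dvd.2 hpm
  have s0 : Summable fun n : O => ‖one m n * (nm n : ℂ) ^ (-w)‖ := by
    refine Summable.of_nonneg_of_le (fun _ => norm_nonneg _) (fun n => ?_) (summable_nm_rpow hw)
    rw [norm_mul, norm_cpow_eq_rpow_re_of_nonneg (nm_nonneg n) (by rw [neg_re]; linarith), neg_re]
    exact mul_le_of_le_one_left (Real.rpow_nonneg (nm_nonneg n) _) (C.euc_norm_one _ _)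
  have s2 : Summable fun n : O => if p ∣ n then one m n * (nm n : ℂ) ^ (-w) else 0 := by
    refine Summable.of_norm_bounded s0 fun n => ?_
    split_ifs
    · exact le_rfl
    · rw [norm_zero]
      exact norm_nonneg _
  have h1 := tsum_dvd hp.ne_zero fun n => one m n * (nm n : ℂ) ^ (-w)
  have h2 : ∑' k : O, one m (p * k) * (nm (p * k) : ℂ) ^ (-w) =
      (nm p : ℂ) ^ (-w) * C.ZD (one m) w := by
    unfold C.ZD
    rw [← tsum_mul_left]
    refine tsum_congr fun k => ?_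
    have h4 : one m p = 1 := if_pos hc
    rw [C.euc_one_mul, h4, C.euc_cpow]
    ring
  have h3 : C.ZD (one (p * m)) w = C.ZD (one m) w -
      ∑' n : O, if p ∣ n then one m n * (nm n : ℂ) ^ (-w) else 0 := by
    unfold C.ZD
    rw [← s0.of_norm.tsum_sub s2]
    refine tsum_congr fun n => ?_
    have h5 : one (p * m) n = one p n * one m n := by
      unfold one
      by_cases a1 : IsCoprime n p <;> by_cases a2 : IsCoprime n m <;>
        simp [IsCoprime.mul_right_iff, a1, a2]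
    rw [h5, C.euc_one_prime hp]
    split_ifs <;> simp
  rw [h3, h1, h2]
  ring

/-- induction over the primes of `q` (as `C.DS_mask_prime`, `C.euc_mask`, with `tsum_dvd`), or
`sum_mu_coprime`, `tsum_dvd`, `sum_pdiv_sqfree`, `Finset.prod_one_sub`-type expansion -/
theorem ZD_one {q : O} (hq : PSq q) {w : ℂ} (hw : 1 < w.re) :
    C.ZD (one q) w = C.ZD (fun _ => 1) w * ∏ p ∈ pfs q, (1 - (nm p : ℂ) ^ (-w)) := by
  classical
  refine hq.1.induction_sqfree (P := fun q => C.ZD (one q) w =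
    C.ZD (fun _ => 1) w * ∏ p ∈ pfs q, (1 - (nm p : ℂ) ^ (-w))) hq.2 ?_ ?_
  · have : one 1 = fun _ => 1 := funext fun n => if_pos isCoprime_one_right
    simp [pra_pfs_one, this]
  · intro p m hp hp' hm _ hpm ih
    have hnot : p ∉ pfs m := fun h => hpm (pra_of_mem_pfs h).2.2
    rw [zt_b_step hp hpm hw, ih, pfs_mul hp.ne_zero hm.ne_zero, pfs_prime hp hp',
      ← Finset.insert_eq, Finset.prod_insert hnot]
    ring

end Crest.Agent.R12.PO
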