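import Crest.Agent.R12.PO.Ker
import Crest.Agent.R12.PO.Zeta

/-! Row 12, block PO: the cube rows, analysis.  Prefix for helper lemmas: `cq_`. -/

set_option autoImplicit false

namespace Crest.Agent.R12.PO

open Crest.Agent.R17 Complex MeasureTheory
open scoped Real ComplexConjugate

/-- `Adm.VI_mul_DD` with `c m = 1[m ≠ 0, (m, q) = 1]`, `l m = N m ^ 3`, kernel `kw a s * y^(-s)` -/
theorem CS_eq_VI {a y : ℝ} (ha : 0 < a) (hy : 0 < y) (q : O) :
    CS a q y = VI 2 fun s => kw a s * (y : ℂ) ^ (-s) * C.ZD (one q) (3 * s) := by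
  classical
  have hadm : Adm (fun m : O => if m ≠ 0 ∧ IsCoprime m q then (1 : ℂ) else 0)
      (fun m => nm m ^ 3) 2 := by
    refine ⟨fun m hm => ?_, ?_⟩
    · have h0 : m ≠ 0 := fun h => hm (by simp [h])
      exact pow_pos (nm_pos h0) 3
    · refine Summable.of_nonneg_of_le (fun m => by have := nm_nonneg m; positivity) (fun m => ?_)
        (B_summable_nm (σ := 6) (by norm_num))
      have e : (nm m ^ 3) ^ (-(2 : ℝ)) = nm m ^ (-(6 : ℝ)) := by
        rw [← Real.rpow_natCast, ← Real.rpow_mul (nm_nonneg m)]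
        norm_num
      rw [e]
      refine mul_le_of_le_one_left (Real.rpow_nonneg (nm_nonneg m) _) ?_
      beta_reduce
      split_ifs <;> simp
  have h := (hadm.VI_mul_DD (K1_eq_VI ha hy two_pos).1).2.tsum_eq
  refine Eq.trans (tsum_congr fun m => ?_) (h.trans (VI_congr fun s hs => ?_))
  · split_ifs with hm
    · rw [one_mul, K1]
      refine VI_congr fun s _ => ?_
      rw [ofReal_mul, mul_cpow_ofReal_nonneg (pow_nonneg (nm_nonneg m) 3) hy.le]
      ring
    · rw [zero_mul]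
  · congr 1
    refine tsum_congr fun m => ?_
    by_cases hm : m = 0
    · have h3 : -(3 * s) ≠ 0 := fun h => by
        have := congrArg Complex.re h
        simp [hs] at this
      simp [hm, nm_eq_zero.2 rfl, zero_cpow h3]
    · simp only [ne_eq, hm, not_false_eq_true, true_and, one]
      congr 1
      rw [lnb_cpow (pow_pos (nm_pos hm) 3), lnb_cpow (nm_pos hm), Real.log_pow]
      congr 1
      push_cast
      ring

theorem cq_prod {q : O} (hq : PSq q) {s : ℂ} (hs : 0 ≤ s.re) :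
    ‖∏ p ∈ pfs q, (1 - (nm p : ℂ) ^ (-(3 * s)))‖ ≤ dn q := by
  rw [dn_sqfree hq, norm_prod, ← Finset.prod_const]
  refine Finset.prod_le_prod (fun _ _ => norm_nonneg _) fun p hp => ?_
  have h0 := (pra_of_mem_pfs hp).1.ne_zero
  have h1 : ‖(nm p : ℂ) ^ (-(3 * s))‖ ≤ 1 := by
    rw [norm_cpow_eq_rpow_re_of_pos (nm_pos h0)]
    exact Real.rpow_le_one_of_one_le_of_nonpos (one_le_nm h0) (by simpa using hs)
  have h2 := norm_sub_le (1 : ℂ) ((nm p : ℂ) ^ (-(3 * s)))
  rw [norm_one] at h2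
  linarith

/-- `CS_eq_VI`, `ZD_one`, `exists_zeta`; `VI_shift_LNt_pole` (`w = -1`, `LNt_neg`, `ρ = 1/3`, lines `1/4`
and `2`) with `G s = RK s y^(-s) E (3 s) / 3 ∏ (1 - N p^(-3s))`; on `Re s = 1/4` use `norm_VI_kw`
(`θ = 1/2`, so the power of `a` is `0`), each factor of the product is at most `2`, `dn_sqfree`. -/
theorem CS_asymp : ∃ C : ℝ, 0 < C ∧ ∀ (a y : ℝ) (q : O), 0 < a → a ≤ 1 → 0 < y → PSq q →
    ‖CS a q y - ((2 * π / (3 * √3) * Phi q * y ^ (-(1 / 3) : ℝ) : ℝ) : ℂ) * kw a (1 / 3)‖ ≤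
      C * dn q * y ^ (-(1 / 4) : ℝ) := by
  obtain ⟨E, C₀, hC₀, hEd, hE1, hE2, hE3, hE4⟩ := exists_zeta
  obtain ⟨C₁, hC₁, hV⟩ := norm_VI_kw (σ := 1 / 4) (θ := 1 / 2) (Or.inl rfl) (by norm_num)
  refine ⟨C₁ * (2 * C₀), by positivity, fun a y q ha ha1 hy hq => ?_⟩
  set Pq : ℂ → ℂ := fun s => ∏ p ∈ pfs q, (1 - (nm p : ℂ) ^ (-(3 * s))) with hPq
  set G : ℂ → ℂ := fun s => RK s * ((y : ℂ) ^ (-s) * (E (3 * s) * (1 / 3 * Pq s))) with hG
  have hy0 : (y : ℂ) ≠ 0 := ofReal_ne_zero.2 hy.ne'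
  have hPd : Differentiable ℂ Pq := by
    refine Differentiable.fun_finsetProd fun p hp => ?_
    have h0 : (nm p : ℂ) ≠ 0 := ofReal_ne_zero.2 (nm_pos (pra_of_mem_pfs hp).1.ne_zero).ne'
    exact (differentiable_const _).sub
      (((differentiable_id.const_mul 3).neg).const_cpow (Or.inl h0))
  have hGd : DifferentiableOn ℂ G (strip (1 / 4) 2) := by
    refine (polyOn_RK.1.mono fun s hs => ?_).mul (Differentiable.differentiableOn ?_)
    · exact lt_of_lt_of_le (by norm_num) hs.1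
    · exact (differentiable_id.neg.const_cpow (Or.inl hy0)).mul
        ((hEd.comp (differentiable_id.const_mul 3)).mul (hPd.const_mul _))
  have hGe : ExpOn (1 / 4) 2 G := by
    obtain ⟨C, A, -, -, hR⟩ := polyOn_RK.2 (1 / 4) 2 (by norm_num)
    refine (ExpOn.of_poly hR).mul (ExpOn.mul ?_ (ExpOn.mul ?_ (ExpOn.of_bdd (B := dn q) ?_)))
    · simpa using expOn_cpow hy (1 / 4) 2 (-1) 0
    · obtain ⟨C', A', h'⟩ := hE3 (3 / 4) 6
      refine ⟨C', 3 * A', fun s hs => (h' (3 * s) ⟨?_, ?_⟩).trans (le_of_eq ?_)⟩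
      · have := hs.1; simp; linarith
      · have := hs.2; simp; linarith
      · congr 2
        simp [abs_mul]
        ring
    · intro s hs
      have h1 := cq_prod hq (s := s) (le_trans (by norm_num) hs.1)
      rw [norm_mul]
      refine (mul_le_of_le_one_left (norm_nonneg _) ?_).trans h1
      norm_num
  have hsh := (VI_shift_LNt_pole (ρ := 1 / 3) ha (-1) (by norm_num) (by norm_num) hGd hGe).2.2
  have hL : ∀ s : ℂ, LNt a (s + -1) = LNt a (1 - s) := fun s => by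
    rw [← LNt_neg]; congr 1; ring
  have key : ∀ s : ℂ, s ≠ 1 / 3 → LNt a (s + -1) * (G s / (s - 1 / 3)) =
      kw a s * ((y : ℂ) ^ (-s) * (E (3 * s) / (3 * s - 1) * Pq s)) := by
    intro s hs
    have h1 : s - 1 / 3 ≠ 0 := sub_ne_zero.2 hs
    have h2 : 3 * s - 1 = 3 * (s - 1 / 3) := by ring
    rw [hL, kw, hG, h2]
    field_simp
  have e1 : CS a q y = VI 2 fun s => LNt a (s + -1) * (G s / (s - 1 / 3)) := by
    rw [CS_eq_VI ha hy]
    refine VI_congr fun s hs => ?_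
    have h3 : 1 < (3 * s).re := by simp [hs]; norm_num
    have h4 : 3 * s - 1 ≠ 0 := fun h => by
      rw [sub_eq_zero.1 h] at h3
      simp at h3
    rw [key s (fun h => by rw [h] at hs; norm_num at hs), ZD_one hq h3, hE1 _ h3,
      mul_div_cancel_left₀ _ h4, mul_assoc]
  have e2 : LNt a (1 / 3 + -1) * G (1 / 3) =
      ((2 * π / (3 * √3) * Phi q * y ^ (-(1 / 3) : ℝ) : ℝ) : ℂ) * kw a (1 / 3) := by
    have h1 : (3 : ℂ) * (1 / 3) = 1 := by norm_num
    have h2 : Pq (1 / 3) = (Phi q : ℂ) := by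
      simp only [hPq, h1, Phi, cpow_neg_one]
      push_cast
      rfl
    have h3 : ((y ^ (-(1 / 3) : ℝ) : ℝ) : ℂ) = (y : ℂ) ^ (-(1 / 3 : ℂ)) := by
      rw [ofReal_cpow hy.le]
      push_cast
      rfl
    rw [hL, kw]
    simp only [hG]
    rw [h1, hE2, h2, ofReal_mul, ofReal_mul, h3]
    push_cast
    ring
  rw [e1, hsh, e2, add_sub_cancel_right,
    VI_congr fun s hs => key s (fun h => by rw [h] at hs; norm_num at hs)]
  have hdn : 0 ≤ dn q := Nat.cast_nonneg _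
  refine (hV a (y ^ (-(1 / 4) : ℝ) * (2 * C₀ * dn q)) _ ha ha1 (by positivity)
    fun s hs => ?_).trans (le_of_eq ?_)
  · have h1 := hE4 (3 * s) (by simp [hs]; norm_num)
    have h2 := cq_prod hq (s := s) (by rw [hs]; norm_num)
    have h3 : (1 + |(3 * s).im|) ^ (1 / 2 : ℝ) ≤ 2 * (1 + |s.im|) ^ (1 / 2 : ℝ) := by
      have h4 : (4 : ℝ) ^ (1 / 2 : ℝ) = 2 := by
        rw [show (4 : ℝ) = 2 ^ (2 : ℝ) by norm_num, ← Real.rpow_mul (by norm_num)]
        norm_num
      have h5 := Real.mul_rpow (x := 4) (y := 1 + |s.im|) (z := 1 / 2) (by norm_num) (by positivity)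
      rw [h4] at h5
      rw [← h5]
      refine Real.rpow_le_rpow (by positivity) ?_ (by norm_num)
      have := abs_nonneg s.im
      simp [abs_mul]
      linarith
    rw [norm_mul, norm_mul, norm_cpow_eq_rpow_re_of_pos hy, neg_re, hs, mul_assoc]
    refine mul_le_mul_of_nonneg_left ?_ (by positivity)
    calc ‖E (3 * s) / (3 * s - 1)‖ * ‖Pq s‖ ≤ C₀ * (2 * (1 + |s.im|) ^ (1 / 2 : ℝ)) * dn q :=
          mul_le_mul (h1.trans (mul_le_mul_of_nonneg_left h3 hC₀.le)) h2 (norm_nonneg _)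
            (by positivity)
      _ = 2 * C₀ * dn q * (1 + |s.im|) ^ (1 / 2 : ℝ) := by ring
  · rw [show (1 - 2 * (1 / 4) - 1 / 2 : ℝ) = 0 by norm_num, Real.rpow_zero]
    ring

end Crest.Agent.R12.PO
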