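import Crest.Agent.R12.PO.CubeA
import Crest.Agent.R12.PO.CubeB

/-! Row 12, block PO: the cube rows, evaluation.  Prefix for helper lemmas: `cc_`. -/

set_option autoImplicit false

namespace Crest.Agent.R12.PO

open Crest.Agent.R17 Complex MeasureTheory
open scoped Real ComplexConjugate

theorem cc_sqrt (p q : ℝ) : √(Real.exp p * Real.exp q) = Real.exp ((p + q) / 2) := by
  rw [← Real.exp_add, ← Real.exp_half]

theorem cc_arg (γ a n p q : ℝ) :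
    Real.exp γ * Real.exp a / (Real.exp n * (Real.exp p * Real.exp q)) =
      Real.exp (γ + a - n - p - q) := by
  rw [← Real.exp_add, ← Real.exp_add, ← Real.exp_add, ← Real.exp_sub]
  congr 1
  ring

/-- real identity behind the main term -/
theorem main_eq {A g r₁ r₂ : ℝ} (hA : 0 < A) (hg : 0 < g) (h₁ : 0 < r₁) (h₂ : 0 < r₂) :
    A / (27 * √(r₁ * r₂)) * (2 * π / (3 * √3) * (g * A / (9 * (r₁ * r₂))) ^ (-(1 / 3) : ℝ)) *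
        (9 : ℝ) ^ (2 / 3 : ℝ) =
      rho0 * A ^ (2 / 3 : ℝ) * ((g * r₁) ^ (-(1 : ℝ) / 6) * (g * r₂) ^ (-(1 : ℝ) / 6)) := by
  obtain ⟨a, rfl⟩ : ∃ a, A = Real.exp a := ⟨_, (Real.exp_log hA).symm⟩
  obtain ⟨γ, rfl⟩ : ∃ a, g = Real.exp a := ⟨_, (Real.exp_log hg).symm⟩
  obtain ⟨p, rfl⟩ : ∃ a, r₁ = Real.exp a := ⟨_, (Real.exp_log h₁).symm⟩
  obtain ⟨q, rfl⟩ : ∃ a, r₂ = Real.exp a := ⟨_, (Real.exp_log h₂).symm⟩
  obtain ⟨n, hn⟩ : ∃ a, (9 : ℝ) = Real.exp a := ⟨_, (Real.exp_log (by norm_num)).symm⟩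
  have e1 : (Real.exp γ * Real.exp a / (9 * (Real.exp p * Real.exp q))) ^ (-(1 / 3) : ℝ) =
      Real.exp ((γ + a - n - p - q) * (-(1 / 3))) := by
    rw [hn, cc_arg, Real.exp_mul]
  have e2 : (9 : ℝ) ^ (2 / 3 : ℝ) = Real.exp (n * (2 / 3)) := by
    rw [hn, Real.exp_mul]
  have key : Real.exp a * Real.exp ((γ + a - n - p - q) * (-(1 / 3))) * Real.exp (n * (2 / 3)) =
      9 * Real.exp ((p + q) / 2) * (Real.exp (a * (2 / 3)) *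
        (Real.exp ((γ + p) * (-(1 : ℝ) / 6)) * Real.exp ((γ + q) * (-(1 : ℝ) / 6)))) := by
    rw [hn]
    simp only [← Real.exp_add]
    congr 1
    ring
  rw [cc_sqrt, e1, e2, ← Real.exp_add γ p, ← Real.exp_add γ q, ← Real.exp_mul, ← Real.exp_mul,
    ← Real.exp_mul, rho0]
  have h3 : (0 : ℝ) < √3 := by positivity
  have h4 := Real.exp_pos ((p + q) / 2)
  calc _ = 2 * π / (81 * √3 * Real.exp ((p + q) / 2)) * (Real.exp a *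
        Real.exp ((γ + a - n - p - q) * (-(1 / 3))) * Real.exp (n * (2 / 3))) := by
        field_simp
        norm_num
    _ = _ := by
        rw [key]
        field_simp
        norm_num

theorem cc_pos {g r : ℝ} (hg : 0 < g) (h : 0 < g * r) : 0 < r :=
  (mul_pos_iff_of_pos_left hg).1 h

/-- real inequality behind the error term -/
theorem err_le {A B g r₁ r₂ : ℝ} (hA : 0 < A) (hB : 0 < B) (hg : 0 < g) (h₁ : B < g * r₁)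
    (h₂ : B < g * r₂) :
    A / (27 * √(r₁ * r₂)) * (g * A / (9 * (r₁ * r₂))) ^ (-(1 / 4) : ℝ) ≤
      A ^ (3 / 4 : ℝ) * B ^ (-(1 / 2) : ℝ) * g ^ (1 / 4 : ℝ) := by
  have hr₁ : 0 < r₁ := cc_pos hg (hB.trans h₁)
  have hr₂ : 0 < r₂ := cc_pos hg (hB.trans h₂)
  obtain ⟨a, rfl⟩ : ∃ a, A = Real.exp a := ⟨_, (Real.exp_log hA).symm⟩
  obtain ⟨β, rfl⟩ : ∃ a, B = Real.exp a := ⟨_, (Real.exp_log hB).symm⟩
  obtain ⟨γ, rfl⟩ : ∃ a, g = Real.exp a := ⟨_, (Real.exp_log hg).symm⟩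
  obtain ⟨p, rfl⟩ : ∃ a, r₁ = Real.exp a := ⟨_, (Real.exp_log hr₁).symm⟩
  obtain ⟨q, rfl⟩ : ∃ a, r₂ = Real.exp a := ⟨_, (Real.exp_log hr₂).symm⟩
  obtain ⟨n, hn⟩ : ∃ a, (9 : ℝ) = Real.exp a := ⟨_, (Real.exp_log (by norm_num)).symm⟩
  obtain ⟨m, hm⟩ : ∃ a, (27 : ℝ) = Real.exp a := ⟨_, (Real.exp_log (by norm_num)).symm⟩
  have hn0 : 0 ≤ n := by
    rw [← Real.exp_le_exp, ← hn, Real.exp_zero]; norm_num
  have hnm : n ≤ m := by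
    rw [← Real.exp_le_exp, ← hn, ← hm]; norm_num
  rw [← Real.exp_add, Real.exp_lt_exp] at h₁ h₂
  rw [cc_sqrt, hn, hm, cc_arg, ← Real.exp_mul, ← Real.exp_mul, ← Real.exp_mul, ← Real.exp_mul,
    ← Real.exp_add, ← Real.exp_sub, ← Real.exp_add, ← Real.exp_add, ← Real.exp_add, Real.exp_le_exp]
  linarith

theorem cc_Phi {g n₁ n₂ : O} (h : Tri g n₁ n₂) :
    Phi (g * n₁ * (g * n₂)) = Phi g * Phi (n₁ * n₂) := by
  have hg := h.hg.ne_zero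
  have h1 := h.h₁.ne_zero
  have h2 := h.h₂.ne_zero
  rw [← Phi_mul hg (mul_ne_zero h1 h2) (h.c₁.mul_right h.c₂)]
  refine Phi_congr (mul_ne_zero (mul_ne_zero hg h1) (mul_ne_zero hg h2))
    (mul_ne_zero hg (mul_ne_zero h1 h2)) fun p hp _ => ?_
  simp only [hp.dvd_mul]
  tauto

/-- `DU_cube`, `CS_asymp`, `RK_third`, `main_eq`, `err_le`, `Phi (g n₁ g n₂) = Phi g Phi (n₁ n₂)`
(`Phi_congr`, `Phi_mul`), `dn_mul_le` -/
theorem cube_le : ∃ C : ℝ, 0 < C ∧ ∀ (a A B : ℝ) (g n₁ n₂ : O), 0 < a → a ≤ 1 → 0 < A → 0 < B →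
    Tri g n₁ n₂ → B < nm (g * n₁) → B < nm (g * n₂) →
    ‖DU Cube a A g n₁ n₂ - ((cP ^ 2 * rho0 * A ^ (2 / 3 : ℝ) : ℝ) : ℂ) * LNt a (2 / 3) *
        ((n6 (g * n₁) * n6 (g * n₂) * Phi (g * n₁ * (g * n₂)) : ℝ) : ℂ)‖ ≤
      C * (A ^ (3 / 4 : ℝ) * B ^ (-(1 / 2) : ℝ)) * (nm g ^ (1 / 4 : ℝ) * (dn n₁ * dn n₂)) := by
  obtain ⟨C, hC, hCS⟩ := CS_asymp
  refine ⟨C, hC, fun a A B g n₁ n₂ ha ha1 hA hB h hB₁ hB₂ => ?_⟩
  have hg := nm_pos h.hg.ne_zero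
  have h1 := nm_pos h.h₁.ne_zero
  have h2 := nm_pos h.h₂.ne_zero
  have hq : PSq (n₁ * n₂) := ⟨h.h₁.1.mul h.h₂.1, squarefree_mul_iff.2 ⟨h.c.isRelPrime, h.h₁.2, h.h₂.2⟩⟩
  have hy : 0 < nm g * A / (9 * (nm n₁ * nm n₂)) := by positivity
  have hb := hCS a _ (n₁ * n₂) ha ha1 hy hq
  rw [nm_mul] at hB₁ hB₂
  have hm := main_eq hA hg h1 h2
  have he := err_le hA hB hg hB₁ hB₂
  set y : ℝ := nm g * A / (9 * (nm n₁ * nm n₂)) with hy_def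
  set Z : ℝ := A / (27 * √(nm n₁ * nm n₂)) with hZ
  have hZ0 : 0 ≤ Z := by positivity
  have hk : kw a (1 / 3) = LNt a (2 / 3) * (((9 : ℝ) ^ (2 / 3 : ℝ) * cP ^ 2 : ℝ) : ℂ) := by
    rw [kw, RK_third]
    norm_num
  have hreal : cP ^ 2 * rho0 * A ^ (2 / 3 : ℝ) * (n6 (g * n₁) * n6 (g * n₂) * Phi (g * n₁ * (g * n₂))) =
      Phi g * Z * (2 * π / (3 * √3) * Phi (n₁ * n₂) * y ^ (-(1 / 3) : ℝ)) *
        ((9 : ℝ) ^ (2 / 3 : ℝ) * cP ^ 2) := by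
    rw [cc_Phi h, n6, n6, nm_mul, nm_mul]
    linear_combination (-(cP ^ 2 * Phi g * Phi (n₁ * n₂))) * hm
  have hmain : ((cP ^ 2 * rho0 * A ^ (2 / 3 : ℝ) : ℝ) : ℂ) * LNt a (2 / 3) *
        ((n6 (g * n₁) * n6 (g * n₂) * Phi (g * n₁ * (g * n₂)) : ℝ) : ℂ) =
      ((Phi g * Z : ℝ) : ℂ) *
        (((2 * π / (3 * √3) * Phi (n₁ * n₂) * y ^ (-(1 / 3) : ℝ) : ℝ) : ℂ) * kw a (1 / 3)) := by
    rw [hk, mul_right_comm, ← Complex.ofReal_mul, hreal, Complex.ofReal_mul, Complex.ofReal_mul]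
    ring
  rw [DU_cube h ha hA, hmain, ← mul_sub, norm_mul, Complex.norm_real, Real.norm_eq_abs,
    abs_of_nonneg (mul_nonneg (Phi_pos g).le hZ0)]
  have hy4 : 0 ≤ y ^ (-(1 / 4) : ℝ) := by positivity
  have hd : 0 ≤ dn n₁ * dn n₂ := mul_nonneg (dn_nonneg _) (dn_nonneg _)
  calc _ ≤ (1 * Z) * (C * (dn n₁ * dn n₂) * y ^ (-(1 / 4) : ℝ)) := by
        refine mul_le_mul (mul_le_mul_of_nonneg_right (Phi_le_one g) hZ0) (hb.trans ?_)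
          (norm_nonneg _) (by positivity)
        exact mul_le_mul_of_nonneg_right (mul_le_mul_of_nonneg_left (dn_mul_le _ _) hC.le) hy4
    _ = C * (dn n₁ * dn n₂) * (Z * y ^ (-(1 / 4) : ℝ)) := by ring
    _ ≤ C * (dn n₁ * dn n₂) * (A ^ (3 / 4 : ℝ) * B ^ (-(1 / 2) : ℝ) * nm g ^ (1 / 4 : ℝ)) :=
        mul_le_mul_of_nonneg_left he (mul_nonneg hC.le hd)
    _ = _ := by ring

end Crest.Agent.R12.PO
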