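import Crest.Agent.R12.Base.All
import Crest.Agent.R17.C.Theta

/-!
Row 12, block PO (owner helper94): definitions and overview.

`EN = ∑ γ γ̄ TP` (`Comb`), `b_i = g n_i` (`SG`), `TP (g n₁) (g n₂) = [n₁ = n₂ = 1] ρ A LNt a 1 Φ(g) + DU ⊤`
(`Pois`, `FT`, `Pair`; the diagonal is NOT treated separately).  `Off`: `SG (DU ok) ≤ C · OD` from `RowBd ok`
(`Gam`, `Row`, `RowBd`).  `CubeA-C`: `DU Cube` is evaluated (`Zeta`).
-/

set_option autoImplicit false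

namespace Crest.Agent.R12.PO

open Crest.Agent.R17
open scoped ComplexConjugate

/-- the Mellin kernel -/
noncomputable def kw (a : ℝ) (s : ℂ) : ℂ := LNt a (1 - s) * RK s

/-- the Hankel transform of the weight -/
noncomputable def K1 (a y : ℝ) : ℂ := VI 2 fun s => kw a s * (y : ℂ) ^ (-s)

/-- `r^(-1/2) K1 (y / r)` -/
noncomputable def K2 (a y r : ℝ) : ℂ := ((Real.sqrt r : ℝ) : ℂ)⁻¹ * K1 a (y / r)

/-- the sum over the rows for one pair of columns -/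
noncomputable def TP (a A : ℝ) (b₁ b₂ : O) : ℂ :=
  GG b₁ * conj (GG b₂) * ∑' x : Pr, (LW a A (nm x) : ℂ) * (conj (cb x b₁) * cb x b₂)

open Classical in
/-- one dual term -/
noncomputable def DT (ok : O → Prop) (a Y : ℝ) (h n₁ n₂ k : O) : ℂ :=
  if k ≠ 0 ∧ ok (k * h) then
    eQ k 3 * (cb (k * h) n₁ * conj (cb (k * h) n₂)) * K2 a (nm k * Y) (nm n₁ * nm n₂) else 0

/-- the dual sum for one pair of columns -/
noncomputable def DU (ok : O → Prop) (a A : ℝ) (g n₁ n₂ : O) : ℂ :=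
  ∑ e ∈ pdiv g, mu e * ((A / (9 * nm e) : ℝ) : ℂ) *
    ∑' k : O, DT ok a (A / (9 * nm e)) (g ^ 2 * e ^ 2) n₁ n₂ k

open Classical in
/-- a sum over pairs of columns, sorted by the greatest common divisor -/
noncomputable def SG (γ : O → ℂ) (X : ℝ) (F : O → O → O → ℂ) : ℂ :=
  ∑ g ∈ sball X, ∑ n₁ ∈ ball X, ∑ n₂ ∈ ball X,
    if IsCoprime n₁ n₂ then γ (g * n₁) * conj (γ (g * n₂)) * F g n₁ n₂ else 0

/-- the triples which occur in `SG` -/
structure Tri (g n₁ n₂ : O) : Prop where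
  hg : PSq g
  h₁ : PSq n₁
  h₂ : PSq n₂
  c₁ : IsCoprime g n₁
  c₂ : IsCoprime g n₂
  c : IsCoprime n₁ n₂

/-- one dual row, summed over the pairs of columns with label `l` -/
noncomputable def PS2 (a : ℝ) (γ : O → ℂ) (X : ℝ) (l h : O) (Y D : ℝ) (k : O) : ℂ :=
  ∑ n₁ ∈ ball X, ∑ n₂ ∈ ball X, γ (l * n₁) * conj (γ (l * n₂)) *
    ((cb (k * h) n₁ * conj (cb (k * h) n₂)) * K2 a (nm k * Y) (nm (l * n₁) * nm (l * n₂) / D))

/-- the shape of the right side of `RowBd` -/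
noncomputable def RR (p₁ p₂ K U : ℝ) : ℝ :=
  p₁ * (U / K) ^ (1 / 3 : ℝ) + p₂ * ((U / K) ^ (1 / 2 : ℝ) + (U / K) ^ (5 / 2 : ℝ))

open Classical in
/-- the sum over the cube rows -/
noncomputable def CS (a : ℝ) (q : O) (y : ℝ) : ℂ :=
  ∑' m : O, if m ≠ 0 ∧ IsCoprime m q then K1 a (nm m ^ 3 * y) else 0

end Crest.Agent.R12.PO
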