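import Crest.Agent.R12.PO.Defs

/-! Row 12, block PO: the finite Fourier transform of a pair of characters.
Prefix for helper lemmas: `ft_`. -/

set_option autoImplicit false

namespace Crest.Agent.R12.PO

open Crest.Agent.R17 Complex MeasureTheory
open scoped Real ComplexConjugate

theorem ft_per_ind : Per 3 (C.prm fun _ => 1) := by
  intro a b h
  have : Prim a ↔ Prim b := ⟨fun ha => ha.congr h, fun hb => hb.congr (dvd_sub_comm.1 h)⟩
  unfold C.prm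
  rw [propext this]

theorem ft_prm (f : O → ℂ) : C.prm f = fun y => C.prm (fun _ => 1) y * f y := by
  funext y
  simp only [C.prm]
  split_ifs <;> simp

theorem ft_per (n₁ n₂ : O) : Per (n₁ * n₂) fun y => conj (cb y n₁) * cb y n₂ :=
  (((per_cb n₁).comp fun z => conj z).mono (dvd_mul_right _ _)).mul
    ((per_cb n₂).mono (dvd_mul_left _ _))

theorem per_pair (n₁ n₂ : O) : Per (3 * (n₁ * n₂)) (C.prm fun y => conj (cb y n₁) * cb y n₂) := by
  rw [ft_prm]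
  exact (ft_per_ind.mono (dvd_mul_right _ _)).mul ((ft_per n₁ n₂).mono (dvd_mul_left _ _))

theorem ft_three {q : O} (hq : Prim q) (k : O) :
    FT 3 (fun y => C.prm (fun _ => 1) (q * y)) k = eQ k 3 := by
  classical
  have h3 : (3 : O) ≠ 0 := by norm_num
  have := rsum_ite h3 (per_eQ k 3) 1
  rw [mul_one] at this
  rw [← this]
  unfold FT
  congr 1
  funext y
  have e : Prim (q * y) ↔ (3 : O) ∣ y - 1 := ⟨fun h => hq.of_mul h, fun h => hq.mul h⟩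
  simp only [C.prm, e]
  split_ifs <;> simp

theorem ft_mixed {n₁ n₂ : O} (h₁ : n₁ ≠ 0) (h₂ : n₂ ≠ 0) (h : IsCoprime n₁ n₂) (k : O) :
    FT (n₁ * n₂) (fun y => cb y n₁ ^ 2 * cb y n₂ ^ 1) k =
      cb n₂ n₁ ^ 2 * gc 2 k n₁ * (cb n₁ n₂ * gc 1 k n₂) := by
  rw [FT_crt h₁ h₂ h (gsb_per 2 n₁) (gsb_per 1 n₂)]
  simp only [cb_mul_left, mul_pow]
  rw [gsb_FT_const, gsb_FT_const, pow_one]
  rfl

theorem ft_cb_three (n : O) : cb 3 n = cb lam n ^ 2 := by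
  rw [← cb_neg_left, ← lam_sq, cb_pow_left _ _ two_ne_zero]

/-- `FT_crt` for `3` and `q = n₁ n₂` (the first factor is `FT 3 1_Prim k = eQ k 3`, `rsum_ite`, as `q` is
primary; the second is `conj (3/n₁) (3/n₂) · FT q …`), `FT_crt` for `n₁`, `n₂`, `conj_cb`, `gc_sqfree`,
`gc_one`, `gsb_conj_gc`, `cb_recip`, `(3/n) = (λ/n)² = conj (λ/n)` (`lam_sq`, `cb_neg_left`),
`cb_mul_conj`, `gsb_g3_conj`.  All phases cancel. -/
theorem FT_pair {n₁ n₂ : O} (h₁ : PSq n₁) (h₂ : PSq n₂) (h : IsCoprime n₁ n₂) (k : O) :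
    GG n₁ * conj (GG n₂) * FT (3 * (n₁ * n₂)) (C.prm fun y => conj (cb y n₁) * cb y n₂) k =
      eQ k 3 * (cb k n₁ * conj (cb k n₂)) * ((√(nm n₁ * nm n₂) : ℝ) : ℂ) := by
  have h3 : (3 : O) ≠ 0 := by norm_num
  have hq : Prim (n₁ * n₂) := h₁.1.mul h₂.1
  rw [ft_prm, FT_crt h3 hq.ne_zero hq.coprime_three.symm ft_per_ind (ft_per n₁ n₂), ft_three hq]
  have e : (fun y => conj (cb (3 * y) n₁) * cb (3 * y) n₂) =
      fun y => (conj (cb lam n₁) ^ 2 * cb lam n₂ ^ 2) * (cb y n₁ ^ 2 * cb y n₂ ^ 1) := by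
    funext y
    rw [cb_mul_left, cb_mul_left, ft_cb_three, ft_cb_three, map_mul, map_pow, conj_cb y]
    ring
  rw [e, gsb_FT_const, ft_mixed h₁.ne_zero h₂.ne_zero h, gc_sqfree h₁.2 (by norm_num),
    gc_sqfree h₂.2 (by norm_num), gc_one h₂.ne_zero, gsb_conj_gc h₁.ne_zero,
    cb_recip h₂.1 h₁.1, ← nm_mul, gsb_sqrt_mul]
  have a1 : conj (cb lam n₁) ^ 3 = 1 := by
    rw [← map_pow, cub_cube h₁.1 (bg_lam h₁.1), map_one]
  have a2 : cb lam n₂ ^ 3 = 1 := cub_cube h₂.1 (bg_lam h₂.1)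
  have a3 : cb n₁ n₂ ^ 3 = 1 := cub_cube h₂.1 h
  have a4 : conj (cb k n₁) ^ 2 = cb k n₁ := by
    rw [conj_cb, ← pow_mul]
    have := cb_pow_add_three k n₁ one_ne_zero
    rw [pow_one] at this
    exact this
  have a5 := gsb_g3_conj h₁.2 h₁.1.coprime_three
  have a6 := gsb_g3_conj h₂.2 h₂.1.coprime_three
  rw [a4]
  simp only [GG, map_mul, conj_conj, pow_one]
  calc _ = conj (cb lam n₁) ^ 3 * cb lam n₂ ^ 3 * cb n₁ n₂ ^ 3 * (g3 n₁ * conj (g3 n₁)) *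
        (g3 n₂ * conj (g3 n₂)) * (eQ k 3 * (cb k n₁ * conj (cb k n₂)) *
          ((√(nm n₁) : ℝ) * (√(nm n₂) : ℝ))) := by ring
    _ = _ := by rw [a1, a2, a3, a5, a6]; ring

end Crest.Agent.R12.PO
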