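import Crest.Agent.R12.PO.Defs

/-! Row 12, block PO: convexity with two exponents, the Gamma ratio `RK` on the lines `1/4`, `5/4`, `2`.
Prefix for helper lemmas: `gm_`. -/

set_option autoImplicit false

namespace Crest.Agent.R12.PO

open Crest.Agent.R17 Complex MeasureTheory
open scoped Real ComplexConjugate

/-- Fix `s₀` in the strip and apply `strip_interp` (`A = 0`) to `G w = F w * cexp ((w - s₀)^2)`
(`logb_gauss`; `(1 + |v|)^A exp (-(v - t)²) ≤ exp (A²) (1 + |t|)^A`, `logb_weight`): on the edge `σ_i`,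
`‖G w‖ ≤ C M (1 + |Im s₀|)^(A_i)`; `G s₀ = F s₀`. -/
theorem strip_two {σ₁ σ₂ A₁ A₂ : ℝ} (h12 : σ₁ < σ₂) (h1 : 0 ≤ A₁) (h2 : 0 ≤ A₂) : ∃ C : ℝ, 0 < C ∧
    ∀ (M : ℝ) (F : ℂ → ℂ), DifferentiableOn ℂ F (strip σ₁ σ₂) → ExpOn σ₁ σ₂ F →
      (∀ s : ℂ, s.re = σ₁ → ‖F s‖ ≤ M * (1 + |s.im|) ^ A₁) →
      (∀ s : ℂ, s.re = σ₂ → ‖F s‖ ≤ M * (1 + |s.im|) ^ A₂) →
      ∀ s ∈ strip σ₁ σ₂, ‖F s‖ ≤
        C * M * (1 + |s.im|) ^ (A₁ * ((σ₂ - s.re) / (σ₂ - σ₁)) + A₂ * ((s.re - σ₁) / (σ₂ - σ₁))) := by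
  obtain ⟨C, hC, h⟩ := strip_interp (A := 0) le_rfl (σ₂ - σ₁)
  set D : ℝ := Real.exp ((σ₂ - σ₁) ^ 2) * Real.exp (A₁ ^ 2 + A₂ ^ 2) with hD
  refine ⟨C * D, by positivity, fun M F hF hE hM₁ hM₂ s hs => ?_⟩
  have hM : 0 ≤ M := by simpa using (norm_nonneg _).trans (hM₁ σ₁ (by simp))
  have hW : σ₂ ≤ σ₁ + (σ₂ - σ₁) := by linarith
  have edge : ∀ (A : ℝ) (w : ℂ), 0 ≤ A → A ^ 2 ≤ A₁ ^ 2 + A₂ ^ 2 → w ∈ strip σ₁ σ₂ →
      ‖F w‖ ≤ M * (1 + |w.im|) ^ A →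
      ‖F w * cexp ((w - s) ^ 2)‖ ≤ D * M * (1 + |s.im|) ^ A * (1 + |w.im|) ^ (0 : ℝ) := by
    intro A w hA hA' hw hFw
    rw [Real.rpow_zero, mul_one, norm_mul]
    calc ‖F w‖ * ‖cexp ((w - s) ^ 2)‖ ≤ M * (1 + |w.im|) ^ A *
          (Real.exp ((σ₂ - σ₁) ^ 2) * Real.exp (-(w.im - s.im) ^ 2)) :=
          mul_le_mul hFw (logb_gauss hW hs hw) (norm_nonneg _) (by positivity)
      _ = M * Real.exp ((σ₂ - σ₁) ^ 2) * ((1 + |w.im|) ^ A * Real.exp (-(w.im - s.im) ^ 2)) := by ring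
      _ ≤ M * Real.exp ((σ₂ - σ₁) ^ 2) * (Real.exp (A ^ 2) * (1 + |s.im|) ^ A) :=
          mul_le_mul_of_nonneg_left (logb_weight hA _ _) (by positivity)
      _ ≤ M * Real.exp ((σ₂ - σ₁) ^ 2) * (Real.exp (A₁ ^ 2 + A₂ ^ 2) * (1 + |s.im|) ^ A) := by gcongr
      _ = _ := by rw [hD]; ring
  have hG : ExpOn σ₁ σ₂ fun w => cexp ((w - s) ^ 2) :=
    ExpOn.of_bdd (B := Real.exp ((σ₂ - σ₁) ^ 2)) fun w hw => (logb_gauss hW hs hw).trans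
      (mul_le_of_le_one_right (Real.exp_pos _).le (Real.exp_le_one_iff.2 (neg_nonpos.2 (sq_nonneg _))))
  have h3 := h σ₁ σ₂ _ _ (fun w => F w * cexp ((w - s) ^ 2)) h12 hW (hF.mul (by fun_prop)) (hE.mul hG)
    (fun w hw => edge A₁ w h1 (by nlinarith [sq_nonneg A₂]) ⟨hw.ge, hw.le.trans h12.le⟩ (hM₁ w hw))
    (fun w hw => edge A₂ w h2 (by nlinarith [sq_nonneg A₁]) ⟨h12.le.trans hw.ge, hw.le⟩ (hM₂ w hw)) s hs
  have hT : 0 < 1 + |s.im| := by positivity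
  have hDM : 0 ≤ D * M := by positivity
  have hθ : (σ₂ - s.re) / (σ₂ - σ₁) + (s.re - σ₁) / (σ₂ - σ₁) = 1 := by
    rw [← add_div, sub_add_sub_cancel, div_self (sub_pos.2 h12).ne']
  simp only [sub_self, ne_eq, OfNat.ofNat_ne_zero, not_false_eq_true, zero_pow, Complex.exp_zero,
    mul_one, Real.rpow_zero] at h3
  rw [Real.mul_rpow hDM (by positivity), Real.mul_rpow hDM (by positivity), mul_mul_mul_comm,
    ← Real.rpow_add' hDM (by rw [hθ]; exact one_ne_zero), hθ, Real.rpow_one, ← Real.rpow_mul hT.le,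
    ← Real.rpow_mul hT.le, ← Real.rpow_add hT] at h3
  calc _ ≤ _ := h3
    _ = _ := by ring

theorem gm_a_nat (m : ℕ) : ∃ C : ℝ, 0 < C ∧ ∀ s : ℂ, s.re = (m + 1) / 2 →
    ‖RK s‖ ≤ C * (1 + |s.im|) ^ (m : ℝ) := by
  refine ⟨(2 * π / √3) ^ (-2 * (((m : ℝ) + 1) / 2) + 1) * ((m : ℝ) + 2) ^ m,
    mul_pos (Real.rpow_pos_of_pos gc_XK_pos _) (by positivity), fun s hs => ?_⟩
  rw [gc_RK, norm_mul, gc_norm_cpow gc_XK_pos, hs, mul_assoc, Real.rpow_natCast]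
  exact mul_le_mul_of_nonneg_left (rfa_ratio_le le_rfl zero_le_one m hs)
    (Real.rpow_pos_of_pos gc_XK_pos _).le

/-- `gc_RK`, `rfa_ratio_le` (`α = 0`, `m = 3`) -/
theorem norm_RK_two : ∃ C : ℝ, 0 < C ∧ ∀ s : ℂ, s.re = 2 → ‖RK s‖ ≤ C * (1 + |s.im|) ^ (3 : ℝ) := by
  obtain ⟨C, hC, h⟩ := gm_a_nat 3
  exact ⟨C, hC, fun s hs => by simpa using h s (by rw [hs]; norm_num)⟩

/-- `strip_two` for `RK` (`polyOn_RK`, `ExpOn.of_poly`) between `Re s = 1` (`m = 1`) and `3/2` (`m = 2`) -/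
theorem norm_RK_five : ∃ C : ℝ, 0 < C ∧ ∀ s : ℂ, s.re = 5 / 4 →
    ‖RK s‖ ≤ C * (1 + |s.im|) ^ (3 / 2 : ℝ) := by
  obtain ⟨C₁, hC₁, h₁⟩ := gm_a_nat 1
  obtain ⟨C₂, hC₂, h₂⟩ := gm_a_nat 2
  obtain ⟨C, hC, h⟩ := strip_two (σ₁ := 1) (σ₂ := 3 / 2) (A₁ := 1) (A₂ := 2) (by norm_num) zero_le_one
    zero_le_two
  obtain ⟨B, A, -, -, hB⟩ := polyOn_RK.2 1 (3 / 2) one_pos
  refine ⟨C * (C₁ + C₂), by positivity, fun s hs => ?_⟩
  have h3 := h (C₁ + C₂) RK (polyOn_RK.1.mono fun w hw => lt_of_lt_of_le one_pos hw.1)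
    (ExpOn.of_poly hB) (fun w hw => ?_) (fun w hw => ?_) s ⟨by rw [hs]; norm_num, by rw [hs]; norm_num⟩
  · rw [hs] at h3
    convert h3 using 3
    norm_num
  · have h4 := h₁ w (by rw [hw]; norm_num)
    rw [Nat.cast_one] at h4
    exact h4.trans (mul_le_mul_of_nonneg_right (by linarith) (by positivity))
  · have h4 := h₂ w (by rw [hw]; norm_num)
    rw [Nat.cast_ofNat] at h4
    exact h4.trans (mul_le_mul_of_nonneg_right (by linarith) (by positivity))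

theorem gm_b_ratio : ∃ C : ℝ, 0 < C ∧ ∀ w : ℂ, w.re = 3 / 4 →
    ‖Gamma (w + (1 / 2 : ℝ)) * (Gamma (1 - w + (1 / 2 : ℝ)))⁻¹‖ ≤ C * (1 + |w.im|) ^ (1 / 2 : ℝ) := by
  obtain ⟨C, hC, h⟩ := strip_two (σ₁ := 1 / 2) (σ₂ := 1) (A₁ := 0) (A₂ := 1) (by norm_num) le_rfl
    zero_le_one
  have hP := polyOn_Gamma_ratio (1 / 2)
  obtain ⟨B, A, -, -, hB⟩ := hP.2 (1 / 2) 1 (by norm_num)
  refine ⟨C * 3, by positivity, fun w hw => ?_⟩
  have := h 3 _ (hP.1.mono fun s hs => by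
      have := hs.1
      simp only [Set.mem_ofPred_eq]
      linarith) (ExpOn.of_poly hB)
    (fun s hs => by
      rw [norm_Gamma_ratio_half (by norm_num) hs, Real.rpow_zero]
      norm_num)
    (fun s hs => by
      have := rfa_ratio_le (α := 1 / 2) (by norm_num) (by norm_num) 1 (s := s) (by rw [hs]; norm_num)
      rw [Real.rpow_one]
      refine this.trans (le_of_eq ?_)
      norm_num) w ⟨by rw [hw]; norm_num, by rw [hw]; norm_num⟩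
  rw [hw] at this
  refine this.trans (le_of_eq ?_)
  norm_num

/-- `strip_two` for `w ↦ Γ(w + 1/2) / Γ(1 - w + 1/2)` (`polyOn_Gamma_ratio (1/2)`) between `Re w = 1/2`
(`norm_Gamma_ratio_half`, exponent `0`) and `Re w = 1` (`norm_Gamma_ratio_nat`, `m = 1`, exponent `1`);
`w = s + 1/2`, `Γ(s + 1) = s Γ(s)`, `1 + |Im s| ≤ 5 ‖s‖`, `gc_RK`. -/
theorem norm_RK_quarter : ∃ C : ℝ, 0 < C ∧ ∀ s : ℂ, s.re = 1 / 4 →
    ‖RK s‖ ≤ C * (1 + |s.im|) ^ (-(1 / 2) : ℝ) := by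
  obtain ⟨C, hC, h⟩ := gm_b_ratio
  have hX := gc_XK_pos
  refine ⟨(2 * π / √3) ^ (1 / 2 : ℝ) * (5 * C), by positivity, fun s hs => ?_⟩
  have h1 := h (s + 1 / 2) (by simp [hs]; norm_num)
  have hs0 : s ≠ 0 := fun h0 => by
    rw [h0] at hs
    norm_num at hs
  have e1 : s + 1 / 2 + ((1 / 2 : ℝ) : ℂ) = s + 1 := by push_cast; ring
  have e2 : 1 - (s + 1 / 2) + ((1 / 2 : ℝ) : ℂ) = 1 - s := by push_cast; ring
  have e3 : (s + 1 / 2).im = s.im := by simp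
  rw [e1, e2, e3, Complex.Gamma_add_one s hs0, mul_assoc, norm_mul] at h1
  have h2 : 1 + |s.im| ≤ 5 * ‖s‖ := by
    have a1 := abs_re_le_norm s
    have a2 := abs_im_le_norm s
    rw [hs, abs_of_pos (by norm_num : (0 : ℝ) < 1 / 4)] at a1
    linarith
  have ht : 0 < 1 + |s.im| := by positivity
  rw [gc_RK, norm_mul, gc_norm_cpow hX, hs, ofReal_zero, add_zero, add_zero, mul_assoc,
    show (-2 : ℝ) * (1 / 4) + 1 = 1 / 2 by norm_num]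
  refine mul_le_mul_of_nonneg_left ?_ (by positivity)
  rw [show (-(1 / 2) : ℝ) = 1 / 2 - 1 by norm_num, Real.rpow_sub_one ht.ne', ← mul_div_assoc,
    le_div_iff₀ ht]
  have := norm_nonneg (Gamma s * (Gamma (1 - s))⁻¹)
  nlinarith

/-- `Γ(1/3) Γ(2/3) = π / sin (π/3) = 2π/√3` (`Real.Gamma_mul_Gamma_one_sub`), so
`RK (1/3) = (2π/√3)^(4/3) / Γ(2/3)²`; `Complex.Gamma_ofReal`. -/
theorem RK_third : RK (1 / 3) = (((9 : ℝ) ^ (2 / 3 : ℝ) * cP ^ 2 : ℝ) : ℂ) := by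
  have hX := gc_XK_pos
  have hG : 0 < Real.Gamma (2 / 3) := Real.Gamma_pos_of_pos (by norm_num)
  have h3 : (0 : ℝ) < √3 := by positivity
  have h1 : Real.Gamma (1 / 3) * Real.Gamma (2 / 3) = 2 * π / √3 := by
    have := Real.Gamma_mul_Gamma_one_sub (1 / 3)
    rw [show (1 : ℝ) - 1 / 3 = 2 / 3 by norm_num, show π * (1 / 3) = π / 3 by ring,
      Real.sin_pi_div_three] at this
    rw [this]
    field_simp
  have e1 : ((-2 : ℝ) : ℂ) * (1 / 3) + ((1 : ℝ) : ℂ) = ((1 / 3 : ℝ) : ℂ) := by push_cast; ring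
  have e2 : (1 / 3 : ℂ) + ((0 : ℝ) : ℂ) = ((1 / 3 : ℝ) : ℂ) := by push_cast; ring
  have e3 : 1 - (1 / 3 : ℂ) + ((0 : ℝ) : ℂ) = ((2 / 3 : ℝ) : ℂ) := by push_cast; ring
  rw [gc_RK, e1, e2, e3, Complex.Gamma_ofReal, Complex.Gamma_ofReal, ← ofReal_cpow hX.le,
    ← ofReal_inv, ← ofReal_mul, ← ofReal_mul]
  congr 1
  have a1 : ((2 * π) ^ ((2 : ℝ) / 3)) ^ 2 = (2 * π) ^ (1 / 3 : ℝ) * (2 * π) := by
    rw [← Real.rpow_mul_natCast (by positivity), ← Real.rpow_add_one (by positivity)]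
    norm_num
  have a2 : (9 : ℝ) ^ (2 / 3 : ℝ) * ((√3) ^ (1 / 3 : ℝ) * √3) = 9 := by
    rw [← Real.rpow_add_one h3.ne', Real.sqrt_eq_rpow, ← Real.rpow_mul (by norm_num),
      show (9 : ℝ) = 3 ^ (2 : ℝ) by norm_num, ← Real.rpow_mul (by norm_num),
      ← Real.rpow_add (by norm_num)]
    norm_num
  have a3 : 0 < (√3) ^ (1 / 3 : ℝ) := by positivity
  rw [eq_div_of_mul_eq hG.ne' h1, cP, div_pow, a1, Real.div_rpow (by positivity) h3.le,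
    eq_div_of_mul_eq (by positivity) a2]
  field_simp
  norm_num

end Crest.Agent.R12.PO
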