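import Crest.Agent.R12.PO.Gam

/-! Row 12, block PO: the kernel `kw` on vertical lines, uniformly in the width.
Prefix for helper lemmas: `kr_`. -/

set_option autoImplicit false

namespace Crest.Agent.R12.PO

open Crest.Agent.R17 Complex MeasureTheory
open scoped Real ComplexConjugate

theorem kr_a_maj {θ : ℝ} (hθ : -1 < θ) : ∃ ψ : ℝ → ℝ, Integrable ψ ∧ ∀ a y : ℝ, 0 < a → a ≤ 1 →
    y ≠ 0 → Real.exp (-(a ^ 2 / 2) * y ^ 2) * (1 + |y|) ^ θ ≤ a ^ (-θ) * ψ (a * y) := by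
  rcases le_total 0 θ with h0 | h0
  · refine ⟨_, integrable_gauss_poly (show (0 : ℝ) < 1 / 2 by norm_num) h0 0, fun a y ha ha1 _ => ?_⟩
    have h1 : 1 + |y| ≤ a⁻¹ * (1 + |a * y|) := by
      rw [abs_mul, abs_of_pos ha, mul_add, inv_mul_cancel_left₀ ha.ne', mul_one]
      linarith [(one_le_inv₀ ha).2 ha1]
    have h2 := Real.rpow_le_rpow (by positivity) h1 h0
    rw [Real.mul_rpow (by positivity) (by positivity), Real.inv_rpow ha.le,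
      ← Real.rpow_neg ha.le] at h2
    rw [show -(1 / 2) * (a * y - 0) ^ 2 = -(a ^ 2 / 2) * y ^ 2 by ring, mul_left_comm]
    exact mul_le_mul_of_nonneg_left h2 (Real.exp_pos _).le
  · have hF := integrable_rpow_mul_exp_neg_mul_sq (show (0 : ℝ) < 1 / 2 by norm_num) hθ
    refine ⟨_, hF.norm.add hF.norm.comp_neg, fun a y ha _ hy => ?_⟩
    have hy' : 0 < |y| := abs_pos.2 hy
    have h1 : (1 + |y|) ^ θ ≤ a ^ (-θ) * |a * y| ^ θ := by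
      rw [abs_mul, abs_of_pos ha, Real.mul_rpow ha.le hy'.le, ← mul_assoc, ← Real.rpow_add ha,
        neg_add_cancel, Real.rpow_zero, one_mul]
      exact Real.rpow_le_rpow_of_nonpos hy' (by linarith) h0
    have h2 : |a * y| ^ θ * Real.exp (-(1 / 2) * |a * y| ^ 2) ≤
        ‖(a * y) ^ θ * Real.exp (-(1 / 2) * (a * y) ^ 2)‖ +
          ‖(-(a * y)) ^ θ * Real.exp (-(1 / 2) * (-(a * y)) ^ 2)‖ := by
      rcases abs_choice (a * y) with h | h <;> rw [h]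
      · exact (Real.le_norm_self _).trans (le_add_of_nonneg_right (norm_nonneg _))
      · exact (Real.le_norm_self _).trans (le_add_of_nonneg_left (norm_nonneg _))
    refine le_trans ?_ (mul_le_mul_of_nonneg_left h2 (by positivity))
    rw [sq_abs, show -(1 / 2) * (a * y) ^ 2 = -(a ^ 2 / 2) * y ^ 2 by ring, ← mul_assoc, mul_comm]
    exact mul_le_mul_of_nonneg_right h1 (Real.exp_pos _).le

/-- for `a ≤ 1`: `1 + |y| ≤ (1 + |a y|) / a` if `θ ≥ 0`; if `-1 < θ < 0` use `(1 + |y|)^θ ≤ |y|^θ`;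
substitute `u = a y` (`MeasureTheory.Measure.integral_comp_mul_left`);
`integrableOn_rpow_mul_exp_neg_mul_sq`, `integrable_gauss_poly`. -/
theorem gauss_rpow {θ : ℝ} (hθ : -1 < θ) : ∃ C : ℝ, 0 < C ∧ ∀ a : ℝ, 0 < a → a ≤ 1 →
    (Integrable fun y : ℝ => a * Real.exp (-(a ^ 2 / 2) * y ^ 2) * (1 + |y|) ^ θ) ∧
    ∫ y : ℝ, a * Real.exp (-(a ^ 2 / 2) * y ^ 2) * (1 + |y|) ^ θ ≤ C * a ^ (-θ) := by
  obtain ⟨ψ, hψ, h⟩ := kr_a_maj hθ
  refine ⟨|∫ u, ψ u| + 1, by positivity, fun a ha ha1 => ?_⟩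
  have h1 : Integrable fun y => a * a ^ (-θ) * ψ (a * y) := (hψ.comp_mul_left' ha.ne').const_mul _
  have h2 : ∀ᵐ y : ℝ, a * Real.exp (-(a ^ 2 / 2) * y ^ 2) * (1 + |y|) ^ θ ≤
      a * a ^ (-θ) * ψ (a * y) := by
    filter_upwards [compl_mem_ae_iff.2 (Real.volume_singleton (a := 0))] with y hy
    rw [mul_assoc, mul_assoc]
    exact mul_le_mul_of_nonneg_left (h a y ha ha1 hy) ha.le
  have hc : Continuous fun y : ℝ => a * Real.exp (-(a ^ 2 / 2) * y ^ 2) * (1 + |y|) ^ θ :=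
    (by fun_prop : Continuous fun y : ℝ => a * Real.exp (-(a ^ 2 / 2) * y ^ 2)).mul
      ((by fun_prop : Continuous fun y : ℝ => 1 + |y|).rpow_const fun y => Or.inl (by positivity))
  have h3 : Integrable fun y : ℝ => a * Real.exp (-(a ^ 2 / 2) * y ^ 2) * (1 + |y|) ^ θ :=
    h1.mono' hc.aestronglyMeasurable (h2.mono fun y hy => by
      rwa [Real.norm_of_nonneg (by positivity)])
  refine ⟨h3, (integral_mono_ae h3 h1 h2).trans ?_⟩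
  rw [integral_const_mul, Measure.integral_comp_mul_left, abs_of_pos (inv_pos.2 ha), smul_eq_mul,
    show a * a ^ (-θ) * (a⁻¹ * ∫ u, ψ u) = (∫ u, ψ u) * a ^ (-θ) by field_simp]
  exact mul_le_mul_of_nonneg_right ((le_abs_self _).trans (by linarith)) (by positivity)

theorem kr_a_kw {σ θ C : ℝ} (hC : 0 < C)
    (h : ∀ s : ℂ, s.re = σ → ‖RK s‖ ≤ C * (1 + |s.im|) ^ θ) : ∃ C : ℝ, 0 < C ∧
    ∀ a y : ℝ, 0 < a → a ≤ 1 → ‖kw a ((σ : ℂ) + y * I)‖ ≤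
      C * (a * Real.exp (-(a ^ 2 / 2) * y ^ 2) * (1 + |y|) ^ θ) := by
  refine ⟨√(2 * π) * Real.exp ((1 - σ) ^ 2 / 2) * C, by positivity, fun a y ha ha1 => ?_⟩
  have h1 := h ((σ : ℂ) + y * I) (by simp)
  have e1 : ((σ : ℂ) + y * I).im = y := by simp
  have e2 : (1 - ((σ : ℂ) + y * I)).re = 1 - σ := by simp
  have e3 : (1 - ((σ : ℂ) + y * I)).im ^ 2 = y ^ 2 := by simp
  rw [e1] at h1
  have h2 : Real.exp (a ^ 2 * (1 - σ) ^ 2 / 2) ≤ Real.exp ((1 - σ) ^ 2 / 2) := by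
    have : a ^ 2 ≤ 1 := pow_le_one₀ ha.le ha1
    exact Real.exp_le_exp.2 (by nlinarith [sq_nonneg (1 - σ)])
  rw [kw, norm_mul, norm_LNt ha.le, e2, e3]
  calc _ ≤ √(2 * π) * a * Real.exp ((1 - σ) ^ 2 / 2) * Real.exp (-(a ^ 2 / 2) * y ^ 2) *
        (C * (1 + |y|) ^ θ) := by gcongr
    _ = _ := by ring

/-- `norm_LNt`, `norm_RK_quarter` -/
theorem norm_kw_quarter : ∃ C : ℝ, 0 < C ∧ ∀ a y : ℝ, 0 < a → a ≤ 1 →
    ‖kw a (((1 / 4 : ℝ) : ℂ) + y * I)‖ ≤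
      C * (a * Real.exp (-(a ^ 2 / 2) * y ^ 2) * (1 + |y|) ^ (-(1 / 2) : ℝ)) := by
  obtain ⟨C, hC, h⟩ := norm_RK_quarter
  exact kr_a_kw hC h

/-- `norm_LNt`, `norm_RK_two` -/
theorem norm_kw_two : ∃ C : ℝ, 0 < C ∧ ∀ a y : ℝ, 0 < a → a ≤ 1 →
    ‖kw a (((2 : ℝ) : ℂ) + y * I)‖ ≤
      C * (a * Real.exp (-(a ^ 2 / 2) * y ^ 2) * (1 + |y|) ^ (3 : ℝ)) := by
  obtain ⟨C, hC, h⟩ := norm_RK_two
  exact kr_a_kw hC h

/-- a line integral against `kw` of a function of polynomial growth (`norm_VI_le`, `gauss_rpow`) -/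
theorem norm_VI_kw {σ θ : ℝ} (hσ : σ = 1 / 4 ∨ σ = 2) (hθ : 0 ≤ θ) : ∃ C : ℝ, 0 < C ∧
    ∀ (a M : ℝ) (G : ℂ → ℂ), 0 < a → a ≤ 1 → 0 ≤ M →
      (∀ s : ℂ, s.re = σ → ‖G s‖ ≤ M * (1 + |s.im|) ^ θ) →
      ‖VI σ fun s => kw a s * G s‖ ≤ C * M * a ^ (1 - 2 * σ - θ) := by
  obtain ⟨C₁, hC₁, h₁⟩ : ∃ C : ℝ, 0 < C ∧ ∀ a y : ℝ, 0 < a → a ≤ 1 → ‖kw a ((σ : ℂ) + y * I)‖ ≤
      C * (a * Real.exp (-(a ^ 2 / 2) * y ^ 2) * (1 + |y|) ^ (2 * σ - 1)) := by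
    rcases hσ with rfl | rfl
    · rw [show 2 * (1 / 4 : ℝ) - 1 = -(1 / 2) by norm_num]
      exact norm_kw_quarter
    · rw [show 2 * (2 : ℝ) - 1 = 3 by norm_num]
      exact norm_kw_two
  obtain ⟨C₂, hC₂, h₂⟩ := gauss_rpow (θ := 2 * σ - 1 + θ) (by rcases hσ with rfl | rfl <;> linarith)
  refine ⟨1 / (2 * π) * (C₁ * C₂), by positivity, fun a M G ha ha1 hM hG => ?_⟩
  obtain ⟨h3, h4⟩ := h₂ a ha ha1
  refine (norm_VI_le (h3.const_mul (C₁ * M)) fun y => ?_).trans ?_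
  · have h5 := hG ((σ : ℂ) + y * I) (by simp)
    rw [show ((σ : ℂ) + y * I).im = y by simp] at h5
    have h6 := h₁ a y ha ha1
    rw [norm_mul, Real.rpow_add (by positivity)]
    calc _ ≤ C₁ * (a * Real.exp (-(a ^ 2 / 2) * y ^ 2) * (1 + |y|) ^ (2 * σ - 1)) *
          (M * (1 + |y|) ^ θ) := by gcongr
      _ = _ := by ring
  · rw [integral_const_mul, show 1 - 2 * σ - θ = -(2 * σ - 1 + θ) by ring]
    calc _ ≤ 1 / (2 * π) * (C₁ * M * (C₂ * a ^ (-(2 * σ - 1 + θ)))) := by gcongr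
      _ = _ := by ring

theorem kr_b_shift {a y σ₁ σ₂ : ℝ} (ha : 0 < a) (hy : 0 < y) (hσ : 0 < σ₁) (h12 : σ₁ ≤ σ₂) :
    VInt σ₁ (fun s => kw a s * (y : ℂ) ^ (-s)) ∧ VInt σ₂ (fun s => kw a s * (y : ℂ) ^ (-s)) ∧
      (VI σ₁ fun s => kw a s * (y : ℂ) ^ (-s)) = VI σ₂ fun s => kw a s * (y : ℂ) ^ (-s) := by
  have e : (fun s => kw a s * (y : ℂ) ^ (-s)) = fun s => LNt a (s + -1) *
      (RK s * (y : ℂ) ^ (((-1 : ℝ) : ℂ) * s + ((0 : ℝ) : ℂ))) := by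
    funext s
    rw [kw, ← LNt_neg a (s + -1), mul_assoc]
    congr 2
    · ring
    · push_cast; ring_nf
  rw [e]
  obtain ⟨C, A, -, -, hb⟩ := polyOn_RK.2 σ₁ σ₂ hσ
  exact VI_shift_LNt ha (-1) h12
    ((polyOn_RK.1.mono fun s hs => hσ.trans_le hs.1).mul
      (gc_diff_cpow hy (-1) 0).differentiableOn)
    ((ExpOn.of_poly hb).mul (expOn_cpow hy σ₁ σ₂ (-1) 0))

/-- `LNt a (1 - s) = LNt a (s + -1)` (`LNt_neg`), `VI_shift_LNt`, `polyOn_RK`, `ExpOn.of_poly`, `expOn_cpow` -/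
theorem K1_eq_VI {a y σ : ℝ} (ha : 0 < a) (hy : 0 < y) (hσ : 0 < σ) :
    VInt σ (fun s => kw a s * (y : ℂ) ^ (-s)) ∧ K1 a y = VI σ fun s => kw a s * (y : ℂ) ^ (-s) := by
  rcases le_total σ 2 with h | h
  · obtain ⟨h1, -, h3⟩ := kr_b_shift ha hy hσ h
    exact ⟨h1, h3.symm⟩
  · obtain ⟨-, h2, h3⟩ := kr_b_shift ha hy two_pos h
    exact ⟨h2, h3⟩

theorem vInt_kw {a σ : ℝ} (ha : 0 < a) (hσ : 0 < σ) : VInt σ (kw a) := by
  have h := (K1_eq_VI ha one_pos hσ).1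
  simpa using h

/-- `norm_VI_le` with `φ y = ‖kw a (2 + i y)‖ y⁻²` -/
theorem norm_K1_le {a : ℝ} (ha : 0 < a) : ∃ C : ℝ, 0 < C ∧ ∀ y : ℝ, 0 < y →
    ‖K1 a y‖ ≤ C * y ^ (-(2 : ℝ)) := by
  have hi := (vInt_kw ha two_pos).norm
  have h0 : 0 ≤ 1 / (2 * π) * ∫ u : ℝ, ‖kw a (((2 : ℝ) : ℂ) + u * I)‖ :=
    mul_nonneg (by positivity) (integral_nonneg fun _ => norm_nonneg _)
  refine ⟨1 / (2 * π) * (∫ u : ℝ, ‖kw a (((2 : ℝ) : ℂ) + u * I)‖) + 1, by linarith,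
    fun y hy => ?_⟩
  have h1 := norm_VI_le (σ := 2) (F := fun s => kw a s * (y : ℂ) ^ (-s))
    (hi.mul_const (y ^ (-(2 : ℝ)))) fun u => by
      rw [norm_mul, norm_cpow_eq_rpow_re_of_pos hy]
      simp
  rw [integral_mul_const, ← mul_assoc] at h1
  have h2 : 0 ≤ y ^ (-(2 : ℝ)) := by positivity
  rw [K1, add_mul]
  linarith

/-- if `n₁ = 0` or `n₂ = 0` all terms vanish (`cb_zero_right`); `norm_K1_le`, `summable_nm_rpow` -/
theorem summable_DT (ok : O → Prop) {a Y : ℝ} (ha : 0 < a) (hY : 0 < Y) (h n₁ n₂ : O) :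
    Summable (DT ok a Y h n₁ n₂) := by
  obtain ⟨C, hC, hK⟩ := norm_K1_le ha
  have hr0 : 0 ≤ nm n₁ * nm n₂ := mul_nonneg (nm_nonneg _) (nm_nonneg _)
  refine Summable.of_norm_bounded ((summable_nm_rpow (σ := 2) (by norm_num)).mul_left
    ((Real.sqrt (nm n₁ * nm n₂))⁻¹ * C * (Y / (nm n₁ * nm n₂)) ^ (-(2 : ℝ)))) fun k => ?_
  have hk0 := nm_nonneg k
  rw [DT]
  split_ifs with hk
  swap
  · rw [norm_zero]; positivity
  rcases hr0.eq_or_lt with hr | hr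
  · simp [K2, ← hr]
  have hk1 := nm_pos hk.1
  have h1 : ‖cb (k * h) n₁ * conj (cb (k * h) n₂)‖ ≤ 1 := by
    rw [norm_mul, norm_conj]
    exact mul_le_one₀ (norm_cb_le _ _) (norm_nonneg _) (norm_cb_le _ _)
  have h2 := hK (nm k * Y / (nm n₁ * nm n₂)) (by positivity)
  rw [mul_div_assoc, Real.mul_rpow hk0 (by positivity)] at h2
  rw [norm_mul, norm_mul, norm_eQ, one_mul, K2, norm_mul _ (K1 _ _), norm_inv, norm_real,
    Real.norm_of_nonneg (Real.sqrt_nonneg _), mul_div_assoc]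
  refine (mul_le_of_le_one_left (by positivity) h1).trans
    ((mul_le_mul_of_nonneg_left h2 (by positivity)).trans (le_of_eq ?_))
  ring

theorem DU_split (ok : O → Prop) {a A : ℝ} (ha : 0 < a) (hA : 0 < A) (g n₁ n₂ : O) :
    DU (fun _ => True) a A g n₁ n₂ = DU ok a A g n₁ n₂ + DU (fun k => ¬ ok k) a A g n₁ n₂ := by
  simp only [DU]
  rw [← Finset.sum_add_distrib]
  refine Finset.sum_congr rfl fun e he => ?_
  have he0 := nm_pos (pra_of_mem_pdiv he).1.ne_zero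
  have hY : 0 < A / (9 * nm e) := by positivity
  rw [← mul_add, ← (summable_DT ok ha hY _ n₁ n₂).tsum_add (summable_DT _ ha hY _ n₁ n₂)]
  congr 1
  refine tsum_congr fun k => ?_
  by_cases hk : k = 0
  · simp [DT, hk]
  by_cases ho : ok (k * (g ^ 2 * e ^ 2)) <;> simp [DT, hk, ho]

end Crest.Agent.R12.PO
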