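import Crest.Agent.R12.PO.Ker

/-! Row 12, block PO: the kernel on the line `Re s = 3`.  Prefix for helper lemmas: `k3_`. -/

set_option autoImplicit false

namespace Crest.Agent.R12.PO

open Crest.Agent.R17 Complex MeasureTheory
open scoped Real ComplexConjugate

theorem norm_VI_kw3 {θ : ℝ} (hθ : 0 ≤ θ) : ∃ C : ℝ, 0 < C ∧
    ∀ (a M : ℝ) (G : ℂ → ℂ), 0 < a → a ≤ 1 → 0 ≤ M →
      (∀ s : ℂ, s.re = 3 → ‖G s‖ ≤ M * (1 + |s.im|) ^ θ) →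
      ‖VI 3 fun s => kw a s * G s‖ ≤ C * M * a ^ (1 - 2 * 3 - θ) := by
  obtain ⟨C₁, hC₁, h₁⟩ := gm_a_nat 5
  obtain ⟨C₂, hC₂, h₂⟩ := gauss_rpow (θ := 5 + θ) (by linarith)
  refine ⟨1 / (2 * π) * (√(2 * π) * Real.exp 2 * C₁ * C₂), by positivity, fun a M G ha ha1 hM hG => ?_⟩
  obtain ⟨hi, hb⟩ := h₂ a ha ha1
  have key : ∀ y : ℝ, ‖kw a (((3 : ℝ) : ℂ) + y * I) * G (((3 : ℝ) : ℂ) + y * I)‖ ≤
      √(2 * π) * Real.exp 2 * C₁ * M * (a * Real.exp (-(a ^ 2 / 2) * y ^ 2) * (1 + |y|) ^ (5 + θ)) := by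
    intro y
    have e1 : (((3 : ℝ) : ℂ) + y * I).re = 3 := by simp
    have e2 : (((3 : ℝ) : ℂ) + y * I).im = y := by simp
    have hR := h₁ (((3 : ℝ) : ℂ) + y * I) (by rw [e1]; norm_num)
    have hG' := hG _ e1
    rw [e2] at hR hG'
    have e3 : (1 - (((3 : ℝ) : ℂ) + y * I)).re = -2 := by simp; norm_num
    have e4 : (1 - (((3 : ℝ) : ℂ) + y * I)).im ^ 2 = y ^ 2 := by simp
    have h5 : Real.exp (a ^ 2 * (-2) ^ 2 / 2) ≤ Real.exp 2 := Real.exp_le_exp.2 (by nlinarith)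
    have hy : 0 < 1 + |y| := by positivity
    rw [kw, norm_mul, norm_mul, norm_LNt ha.le, e3, e4, Real.rpow_add hy]
    calc _ ≤ √(2 * π) * a * Real.exp 2 * Real.exp (-(a ^ 2 / 2) * y ^ 2) *
          (C₁ * (1 + |y|) ^ ((5 : ℕ) : ℝ)) * (M * (1 + |y|) ^ θ) := by gcongr
      _ = _ := by push_cast; ring
  have h6 := norm_VI_le (σ := 3) (F := fun s => kw a s * G s) (hi.const_mul _) key
  rw [integral_const_mul] at h6
  refine h6.trans ?_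
  have e5 : (1 - 2 * 3 - θ : ℝ) = -(5 + θ) := by ring
  rw [e5]
  calc _ ≤ 1 / (2 * π) * (√(2 * π) * Real.exp 2 * C₁ * M * (C₂ * a ^ (-(5 + θ)))) := by gcongr
    _ = _ := by ring

end Crest.Agent.R12.PO
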