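import Crest.Agent.R12.PO.Pois
import Crest.Agent.R12.PO.FT

/-! Row 12, block PO: the identity for one pair of columns.  Prefix for helper lemmas: `pr_`. -/

set_option autoImplicit false

namespace Crest.Agent.R12.PO

open Crest.Agent.R17 Complex MeasureTheory
open scoped Real ComplexConjugate

theorem pra_cb_zero {n : O} (hn : Prim n) (h1 : n ≠ 1) : cb 0 n = 0 :=
  cb_eq_zero_of_not_coprime fun h => h1 (hn.eq_one_of_isUnit (isCoprime_zero_left.1 h))

open Classical in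
/-- `tsum_Pr_eq`, `pois_LW` with `Q = 3 n₁ n₂` (`N Q = 9 N n₁ N n₂`), `FT_pair`; `cb 0 n = 0` unless the
primary `n` is `1` (`cb_ne_zero`, `Prim.eq_one_of_isUnit`). -/
theorem TP_coprime {n₁ n₂ : O} (h₁ : PSq n₁) (h₂ : PSq n₂) (h : IsCoprime n₁ n₂) {a Y : ℝ} (ha : 0 < a)
    (hY : 0 < Y) :
    TP a Y n₁ n₂ = (if n₁ = 1 ∧ n₂ = 1 then ((rho0 * Y : ℝ) : ℂ) * LNt a 1 else 0) +
      ((Y / 9 : ℝ) : ℂ) * ∑' k : O, DT (fun _ => True) a (Y / 9) 1 n₁ n₂ k := by
  have hq : 3 * (n₁ * n₂) ≠ 0 := mul_ne_zero (by norm_num) (mul_ne_zero h₁.ne_zero h₂.ne_zero)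
  have h0 : C.prm (fun y => conj (cb y n₁) * cb y n₂) 0 = 0 := if_neg fun h => h.ne_zero rfl
  have hP := pois_LW hq (per_pair n₁ n₂) h0 ha hY
  have hF := FT_pair h₁ h₂ h
  have hr : 0 < nm n₁ * nm n₂ := mul_pos (nm_pos h₁.ne_zero) (nm_pos h₂.ne_zero)
  have h9 : nm (3 * (n₁ * n₂)) = 9 * (nm n₁ * nm n₂) := by
    have := nm_natCast 3
    rw [nm_mul, nm_mul]
    norm_num at this
    rw [this]
  have e : ∑' x : Pr, (LW a Y (nm x) : ℂ) * (conj (cb x n₁) * cb x n₂) =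
      ∑' n : O, C.prm (fun y => conj (cb y n₁) * cb y n₂) n * (LW a Y (nm n) : ℂ) := by
    rw [tsum_Pr_eq fun x => (LW a Y (nm x) : ℂ) * (conj (cb x n₁) * cb x n₂)]
    refine tsum_congr fun n => ?_
    rw [C.prm, ite_mul, zero_mul, mul_comm]
  rw [TP, e, hP, h9, mul_add]
  congr 1
  · rw [mul_left_comm, hF 0]
    split_ifs with h1
    · obtain ⟨rfl, rfl⟩ := h1
      simp only [eQ_zero, cb_one_right, map_one, nm_one, mul_one, Real.sqrt_one, ofReal_one]
      congr 2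
      unfold rho0
      ring
    · rcases not_and_or.1 h1 with h1 | h1
      · simp [pra_cb_zero h₁.1 h1]
      · simp [pra_cb_zero h₂.1 h1]
  · rw [← tsum_mul_left, ← tsum_mul_left, ← tsum_mul_left]
    refine tsum_congr fun k => ?_
    simp only [DT, and_true, mul_one]
    split_ifs
    · have hs : ((√(nm n₁ * nm n₂) : ℝ) : ℂ) ≠ 0 := ofReal_ne_zero.2 (Real.sqrt_pos.2 hr).ne'
      have hs2 : ((Y / (9 * (nm n₁ * nm n₂)) : ℝ) : ℂ) * ((√(nm n₁ * nm n₂) : ℝ) : ℂ) =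
          ((Y / 9 : ℝ) : ℂ) * ((√(nm n₁ * nm n₂) : ℝ) : ℂ)⁻¹ := by
        rw [← ofReal_inv, ← ofReal_mul, ← ofReal_mul]
        congr 1
        have h3 := Real.mul_self_sqrt hr.le
        have h4 := (Real.sqrt_pos.2 hr).ne'
        generalize √(nm n₁ * nm n₂) = s at h3 h4
        rw [← h3]
        field_simp
      have e2 : nm k * Y / (9 * (nm n₁ * nm n₂)) = nm k * (Y / 9) / (nm n₁ * nm n₂) := by
        field_simp
      rw [K2, e2]
      linear_combination ((Y / (9 * (nm n₁ * nm n₂)) : ℝ) : ℂ) *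
        K1 a (nm k * (Y / 9) / (nm n₁ * nm n₂)) * hF k + eQ k 3 * (cb k n₁ * conj (cb k n₂)) *
        K1 a (nm k * (Y / 9) / (nm n₁ * nm n₂)) * hs2
    · simp

/-- `conj (x/g) (x/g) = 1_{(x,g)=1} = ∑_{e ∣ g, e ∣ x} μ(e)` (`cb_mul_conj`, `sum_mu_coprime`),
`Summable.tsum_finsetSum` (`summable_LW_pr`), `tsum_Pr_dvd`, `LW_mul_arg`, `GG_mul`, `GG_mul_conj` -/
theorem TP_gcd {g n₁ n₂ : O} (h : Tri g n₁ n₂) {a A : ℝ} (ha : 0 < a) (hA : 0 < A) :
    TP a A (g * n₁) (g * n₂) =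
      ∑ e ∈ pdiv g, mu e * (conj (cb (g * e) n₁) * cb (g * e) n₂) * TP a (A / nm e) n₁ n₂ := by
  classical
  have hg := h.hg
  have e1 : ∀ x : Pr, (LW a A (nm x) : ℂ) * (conj (cb x (g * n₁)) * cb x (g * n₂)) =
      ∑ e ∈ pdiv g, if e ∣ (x : O) then
        mu e * (conj (cb x n₁) * cb x n₂) * (LW a A (nm x) : ℂ) else 0 := by
    intro x
    have h1 := cb_mul_conj (x : O) g
    have h2 := sum_mu_coprime hg.1 (x : O)
    have h3 : cb x g * conj (cb x g) = ∑ d ∈ pdiv g, (if d ∣ (x : O) then mu d else 0) := by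
      rw [h1, h2]
      simp [hg.1.coprime_three, isCoprime_comm]
    rw [cb_mul_right, cb_mul_right, map_mul]
    calc _ = (cb x g * conj (cb x g)) * ((conj (cb x n₁) * cb x n₂) * (LW a A (nm x) : ℂ)) := by ring
      _ = _ := by
        rw [h3, Finset.sum_mul]
        refine Finset.sum_congr rfl fun e _ => ?_
        split_ifs <;> ring
  have hs : ∀ e ∈ pdiv g, Summable fun x : Pr => if e ∣ (x : O) then
      mu e * (conj (cb x n₁) * cb x n₂) * (LW a A (nm x) : ℂ) else 0 := by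
    intro e _
    have := summable_LW_pr ha hA (f := fun x => if e ∣ x then mu e * (conj (cb x n₁) * cb x n₂) else 0)
      (M := 1) (θ := 0) fun n _ => by
        rw [Real.rpow_zero, mul_one]
        split_ifs
        · rw [norm_mul, norm_mul, RCLike.norm_conj]
          exact mul_le_one₀ (norm_mu_le e) (by positivity)
            (mul_le_one₀ (norm_cb_le _ _) (norm_nonneg _) (norm_cb_le _ _))
        · simp
    refine this.of_norm.congr fun x => ?_
    split_ifs <;> simp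
  rw [TP, tsum_congr e1, Summable.tsum_finsetSum hs, Finset.mul_sum]
  refine Finset.sum_congr rfl fun e he => ?_
  have hp := (pra_of_mem_pdiv he).1
  rw [tsum_Pr_dvd hp fun x => mu e * (conj (cb x n₁) * cb x n₂) * (LW a A (nm x) : ℂ), TP,
    GG_mul hg.1 h.h₁.1 h.c₁, GG_mul hg.1 h.h₂.1 h.c₂, ← tsum_mul_left, ← tsum_mul_left, ← tsum_mul_left]
  refine tsum_congr fun x => ?_
  have h4 := GG_mul_conj hg
  simp only [cb_mul_left, map_mul, nm_mul, LW_mul_arg, conj_conj]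
  linear_combination (GG n₁ * conj (cb g n₁) * conj (GG n₂) * cb g n₂ * mu e * conj (cb e n₁) *
    conj (cb x n₁) * cb e n₂ * cb x n₂ * (LW a (A / nm e) (nm x) : ℂ)) * h4

/-- `conj_cb`, `cb_pow_left` -/
theorem DT_twist (a Y : ℝ) (u n₁ n₂ k : O) :
    conj (cb u n₁) * cb u n₂ * DT (fun _ => True) a Y 1 n₁ n₂ k = DT (fun _ => True) a Y (u ^ 2) n₁ n₂ k := by
  simp only [DT, and_true, mul_one]
  split_ifs
  · rw [cb_mul_left, cb_mul_left, cb_pow_left u n₁ two_ne_zero, cb_pow_left u n₂ two_ne_zero,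
      ← conj_cb, ← conj_cb, map_mul, conj_conj]
    ring
  · simp

open Classical in
/-- `TP_gcd`, `TP_coprime`, `DT_twist`, `Phi_eq_sum` -/
theorem TP_eq {g n₁ n₂ : O} (h : Tri g n₁ n₂) {a A : ℝ} (ha : 0 < a) (hA : 0 < A) :
    TP a A (g * n₁) (g * n₂) =
      (if n₁ = 1 ∧ n₂ = 1 then ((rho0 * A : ℝ) : ℂ) * LNt a 1 * (Phi g : ℂ) else 0) +
        DU (fun _ => True) a A g n₁ n₂ := by
  rw [TP_gcd h ha hA, DU, Phi_eq_sum h.hg.ne_zero, Finset.mul_sum]
  have hd : (if n₁ = 1 ∧ n₂ = 1 then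
      ∑ e ∈ pdiv g, ((rho0 * A : ℝ) : ℂ) * LNt a 1 * (mu e / (nm e : ℂ)) else 0) =
      ∑ e ∈ pdiv g, if n₁ = 1 ∧ n₂ = 1 then
        ((rho0 * A : ℝ) : ℂ) * LNt a 1 * (mu e / (nm e : ℂ)) else 0 := by
    split_ifs <;> simp
  rw [hd, ← Finset.sum_add_distrib]
  refine Finset.sum_congr rfl fun e he => ?_
  have he0 := nm_pos ((mem_pdiv h.hg.ne_zero).1 he).1.ne_zero
  rw [TP_coprime h.h₁ h.h₂ h.c ha (div_pos hA he0), mul_add, div_div, mul_comm (nm e) 9, ← mul_pow]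
  congr 1
  · split_ifs with h1
    · obtain ⟨rfl, rfl⟩ := h1
      simp only [cb_one_right, map_one, mul_one]
      push_cast
      ring
    · simp
  · simp only [← DT_twist a _ (g * e), tsum_mul_left]
    ring

end Crest.Agent.R12.PO
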