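import Crest.Agent.R12.PO.Ker

/-! Row 12, block PO: Poisson summation with the weight `LW`.  Prefix for helper lemmas: `ps_`. -/

set_option autoImplicit false

namespace Crest.Agent.R12.PO

open Crest.Agent.R17 Complex MeasureTheory
open scoped Real ComplexConjugate

theorem ps_adm {c : O → ℂ} {B : ℝ} (h0 : c 0 = 0) (hB : ∀ n, ‖c n‖ ≤ B) : Adm c nm 2 := by
  obtain ⟨_, -, h⟩ := adm_O (θ := 0) (σ := 2) (by norm_num)
  exact (h id c B Function.injective_id (fun n hn => by rw [show n = 0 from hn, h0])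
    (fun n _ => by simpa using hB n) ((norm_nonneg _).trans (hB 0))).1

open Classical in
/-- `C.exists_cont`, `Adm.SS_eq_reflect_pole` (`σ = 2`, `t = 0`, `c = Ψ`, `l = nm`, `adm_O` with `θ = 0`,
`Per.bdd`, `LN_eq_LW`); on the dual side `C.ZD (FT Q Ψ) s = DD c' nm s` with `c' 0 = 0`,
`Adm.VI_mul_DD` with the kernel `kw a s * (Y / N Q)^(-s)` (`K1_eq_VI`), `FT_zero`. -/
theorem pois_LW {Q : O} {Ψ : O → ℂ} (hQ : Q ≠ 0) (hΨ : Per Q Ψ) (h0 : Ψ 0 = 0) {a Y : ℝ} (ha : 0 < a)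
    (hY : 0 < Y) :
    ∑' n : O, Ψ n * (LW a Y (nm n) : ℂ) =
      ((2 * π / √3 * Y / nm Q : ℝ) : ℂ) * LNt a 1 * FT Q Ψ 0 +
        ((Y / nm Q : ℝ) : ℂ) * ∑' k : O, if k ≠ 0 then FT Q Ψ k * K1 a (nm k * Y / nm Q) else 0 := by
  obtain ⟨E, hE, h1, h2, h3, h4⟩ := C.exists_cont hQ hΨ
  obtain ⟨B, hB⟩ := hΨ.bdd hQ
  have hN := nm_pos hQ
  have hy : 0 < Y / nm Q := div_pos hY hN
  have k1 := (ps_adm h0 hB).SS_eq_reflect_pole one_lt_two ha hY 0 hE.differentiableOn (h4 _ _)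
    fun s hs => h1 s (by rw [hs]; exact one_lt_two)
  have k2 := ((ps_adm (c := fun k => if k ≠ 0 then FT Q Ψ k else 0) (B := nm Q * B) (by simp)
    fun k => by
      split_ifs
      · exact norm_FT_le hQ hB k
      · exact norm_zero.trans_le (mul_nonneg hN.le ((norm_nonneg _).trans (hB 0)))).VI_mul_DD
      (K1_eq_VI ha hy two_pos).1).2.tsum_eq
  have k3 : ∀ k : O, (if k ≠ 0 then FT Q Ψ k * K1 a (nm k * Y / nm Q) else 0) =
      (if k ≠ 0 then FT Q Ψ k else 0) *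
        VI 2 fun s => kw a s * ((Y / nm Q : ℝ) : ℂ) ^ (-s) * (nm k : ℂ) ^ (-s) := fun k => by
    split_ifs
    · unfold K1
      congr 1
      refine VI_congr fun s _ => ?_
      rw [mul_div_assoc, ofReal_mul, mul_cpow_ofReal_nonneg (nm_nonneg k) hy.le]
      ring
    · rw [zero_mul]
  simp only [SS, LN_eq_LW, ofReal_zero, mul_zero, add_zero] at k1
  rw [k1, tsum_congr k3, k2, ← VI_const_mul, h2, FT_zero]
  congr 1
  · push_cast
    ring
  refine VI_congr fun s hs => ?_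
  have hs0 : s ≠ 0 := fun h => by simp [h] at hs
  have e1 : C.ZD (FT Q Ψ) s = DD (fun k => if k ≠ 0 then FT Q Ψ k else 0) nm s :=
    tsum_congr fun k => by
      dsimp only
      split_ifs with hk
      · rfl
      · rw [not_not.1 hk, nm_zero, ofReal_zero, zero_cpow (neg_ne_zero.2 hs0), mul_zero, mul_zero]
  have e2 : (Y : ℂ) ^ (1 - s) * (nm Q : ℂ) ^ (s - 1) =
      ((Y / nm Q : ℝ) : ℂ) * ((Y / nm Q : ℝ) : ℂ) ^ (-s) := by
    rw [rfa_cpow hY, rfa_cpow hN, rfa_cpow hy]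
    nth_rw 1 [← Real.exp_log hy]
    rw [Real.log_div hY.ne' hN.ne', ofReal_exp, ← Complex.exp_add, ← Complex.exp_add]
    congr 1
    push_cast
    ring
  rw [h3 s (by rw [hs]; exact one_lt_two), e1, mul_assoc (-s), mul_assoc (-s),
    mul_div_cancel_left₀ _ (neg_ne_zero.2 hs0), kw]
  linear_combination (LNt a (1 - s) * RK s * DD (fun k => if k ≠ 0 then FT Q Ψ k else 0) nm s) * e2

end Crest.Agent.R12.PO
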