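import Crest.Agent.R12.PO.Ker

/-! Row 12, block PO: one dual row as a line integral; dyadic summation over the rows.
Prefix for helper lemmas: `rw_`. -/

set_option autoImplicit false

namespace Crest.Agent.R12.PO

open Crest.Agent.R17 Complex MeasureTheory
open scoped Real ComplexConjugate

theorem rw_a_conj {x : ℝ} (hx : 0 < x) (s : ℂ) :
    conj ((x : ℂ) ^ (conj s - 1 / 2)) = (x : ℂ) ^ (s - 1 / 2) := by
  rw [lnb_cpow hx, lnb_cpow hx, ← Complex.exp_conj]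
  simp only [map_mul, map_sub, map_div₀, map_one, Complex.conj_ofReal, Complex.conj_conj,
    Complex.conj_ofNat]

theorem rw_a_pow {y x₁ x₂ B D : ℝ} (hy : 0 < y) (h₁ : 0 < x₁) (h₂ : 0 < x₂) (hB : 0 < B)
    (hD : 0 < D) (s : ℂ) :
    (y : ℂ) ^ (-s) * ((B ^ 2 / D : ℝ) : ℂ) ^ (s - 1 / 2) *
      (((x₁ / B : ℝ) : ℂ) ^ (s - 1 / 2) * ((x₂ / B : ℝ) : ℂ) ^ (s - 1 / 2)) =
      ((Real.sqrt (x₁ * x₂ / D) : ℝ) : ℂ)⁻¹ * ((y / (x₁ * x₂ / D) : ℝ) : ℂ) ^ (-s) := by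
  have hr : 0 < x₁ * x₂ / D := by positivity
  have e : ((Real.sqrt (x₁ * x₂ / D) : ℝ) : ℂ)⁻¹ =
      cexp (-((Real.log (x₁ * x₂ / D) / 2 : ℝ) : ℂ)) := by
    rw [Complex.exp_neg, ← Complex.ofReal_exp, ← Real.log_sqrt hr.le,
      Real.exp_log (Real.sqrt_pos.2 hr)]
  rw [e, lnb_cpow hy, lnb_cpow (by positivity), lnb_cpow (by positivity), lnb_cpow (by positivity),
    lnb_cpow (by positivity), Real.log_div hy.ne' hr.ne', Real.log_div (by positivity) hD.ne',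
    Real.log_div (by positivity) hD.ne', Real.log_div h₁.ne' hB.ne', Real.log_div h₂.ne' hB.ne',
    Real.log_mul h₁.ne' h₂.ne', Real.log_pow]
  simp only [← Complex.exp_add]
  congr 1
  push_cast
  ring

/-- `K1_eq_VI`, `VI_sum`, `VI_const_mul`; with `r = N(l n₁) N(l n₂) / D`,
`(√r)⁻¹ (y / r)^(-s) = y^(-s) (B²/D)^(s-1/2) (N(l n₁)/B)^(s-1/2) (N(l n₂)/B)^(s-1/2)` (write all powers
as exponentials, `lnb_cpow`); terms with `n_i = 0` vanish (`cb_zero_right`); `conj (x^(conj s - 1/2)) = x^(s-1/2)`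
for real `x ≥ 0`. -/
theorem PS2_eq_VI {a B Y D σ : ℝ} (ha : 0 < a) (hB : 0 < B) (hY : 0 < Y) (hD : 0 < D) (hσ : 0 < σ)
    (γ : O → ℂ) (X : ℝ) {l k : O} (hl : l ≠ 0) (hk : k ≠ 0) (h : O) :
    VInt σ (fun s => kw a s * (((nm k * Y : ℝ) : ℂ) ^ (-s) * ((B ^ 2 / D : ℝ) : ℂ) ^ (s - 1 / 2) *
      (RS γ X B l h k (s - 1 / 2) * conj (RS γ X B l h k (conj s - 1 / 2))))) ∧
    PS2 a γ X l h Y D k = VI σ fun s => kw a s *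
      (((nm k * Y : ℝ) : ℂ) ^ (-s) * ((B ^ 2 / D : ℝ) : ℂ) ^ (s - 1 / 2) *
        (RS γ X B l h k (s - 1 / 2) * conj (RS γ X B l h k (conj s - 1 / 2)))) := by
  have hy : 0 < nm k * Y := mul_pos (nm_pos hk) hY
  obtain ⟨c, hc⟩ : ∃ c : O → O → ℂ, ∀ n₁ n₂, c n₁ n₂ = γ (l * n₁) * conj (γ (l * n₂)) *
    (cb (k * h) n₁ * conj (cb (k * h) n₂)) *
      ((Real.sqrt (nm (l * n₁) * nm (l * n₂) / D) : ℝ) : ℂ)⁻¹ := ⟨_, fun _ _ => rfl⟩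
  obtain ⟨T, hT⟩ : ∃ T : O → O → ℂ → ℂ, ∀ n₁ n₂, T n₁ n₂ = fun s => c n₁ n₂ *
    (kw a s * ((nm k * Y / (nm (l * n₁) * nm (l * n₂) / D) : ℝ) : ℂ) ^ (-s)) := ⟨_, fun _ _ => rfl⟩
  have h1 : ∀ s : ℂ, ∑ n₁ ∈ ball X, ∑ n₂ ∈ ball X, T n₁ n₂ s = kw a s *
      (((nm k * Y : ℝ) : ℂ) ^ (-s) * ((B ^ 2 / D : ℝ) : ℂ) ^ (s - 1 / 2) *
        (RS γ X B l h k (s - 1 / 2) * conj (RS γ X B l h k (conj s - 1 / 2)))) := fun s => by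
    rw [RS, RS, map_sum, Finset.sum_mul_sum]
    simp only [Finset.mul_sum]
    refine Finset.sum_congr rfl fun n₁ _ => Finset.sum_congr rfl fun n₂ _ => ?_
    rw [hT, hc]
    rcases eq_or_ne n₁ 0 with rfl | hn₁
    · simp
    rcases eq_or_ne n₂ 0 with rfl | hn₂
    · simp
    have p₁ := nm_pos (mul_ne_zero hl hn₁)
    have p₂ := nm_pos (mul_ne_zero hl hn₂)
    have e := rw_a_pow hy p₁ p₂ hB hD s
    rw [map_mul, map_mul, rw_a_conj (div_pos p₂ hB)]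
    linear_combination (-(kw a s * (γ (l * n₁) * conj (γ (l * n₂)) *
      (cb (k * h) n₁ * conj (cb (k * h) n₂))))) * e
  have h2 : ∀ n₁ n₂, VInt σ (T n₁ n₂) ∧ γ (l * n₁) * conj (γ (l * n₂)) *
      ((cb (k * h) n₁ * conj (cb (k * h) n₂)) *
        K2 a (nm k * Y) (nm (l * n₁) * nm (l * n₂) / D)) = VI σ (T n₁ n₂) := fun n₁ n₂ => by
    rw [hT, VI_const_mul, hc]
    rcases eq_or_ne n₁ 0 with rfl | hn₁
    · simp [VInt]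
    rcases eq_or_ne n₂ 0 with rfl | hn₂
    · simp [VInt]
    have p₁ := nm_pos (mul_ne_zero hl hn₁)
    have p₂ := nm_pos (mul_ne_zero hl hn₂)
    obtain ⟨q₁, q₂⟩ := K1_eq_VI (y := nm k * Y / (nm (l * n₁) * nm (l * n₂) / D)) ha
      (by positivity) hσ
    refine ⟨q₁.const_mul _, ?_⟩
    rw [K2, q₂]
    ring
  have h3 : ∀ n₁, VInt σ fun s => ∑ n₂ ∈ ball X, T n₁ n₂ s := fun n₁ =>
    integrable_finsetSum _ fun n₂ _ => (h2 n₁ n₂).1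
  have h4 : VInt σ fun s => ∑ n₁ ∈ ball X, ∑ n₂ ∈ ball X, T n₁ n₂ s :=
    integrable_finsetSum _ fun n₁ _ => h3 n₁
  refine ⟨h4.congr fun s _ => h1 s, ?_⟩
  rw [← VI_congr fun s _ => h1 s, VI_sum _ fun n₁ _ => h3 n₁, PS2]
  refine Finset.sum_congr rfl fun n₁ _ => ?_
  rw [VI_sum _ fun n₂ _ => (h2 n₁ n₂).1]
  exact Finset.sum_congr rfl fun n₂ _ => (h2 n₁ n₂).2

theorem RR_nonneg {p₁ p₂ K U : ℝ} (h₁ : 0 ≤ p₁) (h₂ : 0 ≤ p₂) (hK : 0 < K) (hU : 0 ≤ U) :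
    0 ≤ RR p₁ p₂ K U := by
  unfold RR; positivity

/-- summation over blocks with geometrically decreasing contributions -/
theorem rw_b_blocks {ι : Type*} (S : Finset ι) (idx : ι → ℕ) (w f : ι → ℝ) (c : ℕ → ℝ) {D r : ℝ}
    (hD : 0 ≤ D) (hr0 : 0 ≤ r) (hr1 : r < 1) (hf : ∀ k, 0 ≤ f k) (hw : ∀ k ∈ S, w k ≤ c (idx k))
    (hb : ∀ i : ℕ, c i * ∑ k ∈ S with idx k = i, f k ≤ D * r ^ i) :
    ∑ k ∈ S, w k * f k ≤ (1 - r)⁻¹ * D := by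
  classical
  have h1 : ∑ k ∈ S, w k * f k = ∑ i ∈ S.image idx, ∑ k ∈ S with idx k = i, w k * f k :=
    (Finset.sum_fiberwise_of_maps_to (fun k hk => Finset.mem_image_of_mem idx hk) _).symm
  have h2 : ∀ i, ∑ k ∈ S with idx k = i, w k * f k ≤ D * r ^ i := by
    intro i
    refine le_trans ?_ (hb i)
    rw [Finset.mul_sum]
    refine Finset.sum_le_sum fun k hk => ?_
    rw [Finset.mem_filter] at hk
    have := hw k hk.1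
    rw [hk.2] at this
    exact mul_le_mul_of_nonneg_right this (hf k)
  have h3 : ∑ i ∈ S.image idx, r ^ i ≤ (1 - r)⁻¹ := by
    rw [← tsum_geometric_of_lt_one hr0 hr1]
    exact (summable_geometric_of_lt_one hr0 hr1).sum_le_tsum _ fun i _ => pow_nonneg hr0 i
  rw [h1]
  calc _ ≤ ∑ i ∈ S.image idx, D * r ^ i := Finset.sum_le_sum fun i _ => h2 i
    _ = D * ∑ i ∈ S.image idx, r ^ i := (Finset.mul_sum _ _ _).symm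
    _ ≤ D * (1 - r)⁻¹ := mul_le_mul_of_nonneg_left h3 hD
    _ = _ := mul_comm _ _

theorem rw_b_scale {t u a b : ℝ} (ht : 0 < t) (hu : 0 ≤ u) (h : t ^ a ≤ t ^ b) :
    (t * u) ^ a ≤ t ^ b * u ^ a := by
  rw [Real.mul_rpow ht.le hu]
  exact mul_le_mul_of_nonneg_right h (Real.rpow_nonneg hu _)

theorem rw_b_RR_small {p₁ p₂ K U t : ℝ} (h₁ : 0 ≤ p₁) (h₂ : 0 ≤ p₂) (hK : 0 < K) (hU : 0 ≤ U)
    (ht : 0 < t) (ht1 : t ≤ 1) : RR p₁ p₂ K (t * U) ≤ t ^ (1 / 3 : ℝ) * RR p₁ p₂ K U := by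
  unfold RR
  have hu : 0 ≤ U / K := div_nonneg hU hK.le
  rw [mul_div_assoc, mul_add (t ^ _), mul_left_comm (t ^ _), mul_left_comm (t ^ _), mul_add (t ^ _)]
  refine add_le_add (mul_le_mul_of_nonneg_left (rw_b_scale ht hu le_rfl) h₁)
    (mul_le_mul_of_nonneg_left (add_le_add (rw_b_scale ht hu ?_) (rw_b_scale ht hu ?_)) h₂)
  · exact Real.rpow_le_rpow_of_exponent_ge ht ht1 (by norm_num)
  · exact Real.rpow_le_rpow_of_exponent_ge ht ht1 (by norm_num)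

theorem rw_b_RR_large {p₁ p₂ K U t : ℝ} (h₁ : 0 ≤ p₁) (h₂ : 0 ≤ p₂) (hK : 0 < K) (hU : 0 ≤ U)
    (ht1 : 1 ≤ t) : RR p₁ p₂ K (t * U) ≤ t ^ (5 / 2 : ℝ) * RR p₁ p₂ K U := by
  unfold RR
  have ht : 0 < t := lt_of_lt_of_le one_pos ht1
  have hu : 0 ≤ U / K := div_nonneg hU hK.le
  rw [mul_div_assoc, mul_add (t ^ _), mul_left_comm (t ^ _), mul_left_comm (t ^ _), mul_add (t ^ _)]
  refine add_le_add (mul_le_mul_of_nonneg_left (rw_b_scale ht hu ?_) h₁)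
    (mul_le_mul_of_nonneg_left (add_le_add (rw_b_scale ht hu ?_) (rw_b_scale ht hu ?_)) h₂)
  · exact Real.rpow_le_rpow_of_exponent_le ht1 (by norm_num)
  · exact Real.rpow_le_rpow_of_exponent_le ht1 (by norm_num)
  · exact Real.rpow_le_rpow_of_exponent_le ht1 (by norm_num)

theorem rw_b_pow (i : ℕ) (a : ℝ) : ((2 : ℝ) ^ i) ^ a = ((2 : ℝ) ^ a) ^ i := by
  rw [← Real.rpow_natCast, ← Real.rpow_natCast, ← Real.rpow_mul (by norm_num),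
    ← Real.rpow_mul (by norm_num), mul_comm]

theorem rw_b_idx (x : O → ℝ) : ∃ idx : O → ℕ, ∀ k, 1 ≤ x k →
    (2 : ℝ) ^ idx k ≤ x k ∧ x k < 2 ^ (idx k + 1) := by
  have : ∀ k, ∃ i : ℕ, 1 ≤ x k → (2 : ℝ) ^ i ≤ x k ∧ x k < 2 ^ (i + 1) := by
    intro k
    by_cases h : 1 ≤ x k
    · obtain ⟨i, hi⟩ := exists_nat_pow_near h (one_lt_two : (1 : ℝ) < 2)
      exact ⟨i, fun _ => hi⟩
    · exact ⟨0, fun h' => absurd h' h⟩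
  choose idx h using this
  exact ⟨idx, h⟩

/-- blocks `K'/2^(i+1) < N k ≤ K'/2^i` (a non-empty block has `1 ≤ K'/2^i`),
`RR (K'/2^i) ≤ 2^(-i/3) RR K'`, `∑ 2^((i+1)/4 - i/3) < ∞`; `Finset.sum_fiberwise_of_maps_to` with
`i = Nat.log 2 ⌊K'/N k⌋₊` -/
theorem dy_small : ∃ C : ℝ, 0 < C ∧ ∀ (p₁ p₂ K K' M : ℝ) (S : Finset O) (f : O → ℝ), 0 ≤ p₁ → 0 ≤ p₂ →
    0 < K → 0 < K' → 0 ≤ M → (∀ k, 0 ≤ f k) → (∀ k ∈ S, k ≠ 0 ∧ nm k ≤ K') →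
    (∀ (U : ℝ) (T : Finset O), 1 ≤ U → T ⊆ S → (∀ k ∈ T, nm k ≤ U) → ∑ k ∈ T, f k ≤ M * RR p₁ p₂ K U) →
    ∑ k ∈ S, (K' / nm k) ^ (1 / 4 : ℝ) * f k ≤ C * M * RR p₁ p₂ K K' := by
  classical
  have hr1 : (2 : ℝ) ^ (-(1 / 12) : ℝ) < 1 :=
    Real.rpow_lt_one_of_one_lt_of_neg (by norm_num) (by norm_num)
  have hr0 : 0 < (2 : ℝ) ^ (-(1 / 12) : ℝ) := Real.rpow_pos_of_pos (by norm_num) _
  have hq : 0 < (2 : ℝ) ^ (1 / 4 : ℝ) := Real.rpow_pos_of_pos (by norm_num) _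
  refine ⟨(1 - (2 : ℝ) ^ (-(1 / 12) : ℝ))⁻¹ * (2 : ℝ) ^ (1 / 4 : ℝ),
    mul_pos (inv_pos.2 (by linarith)) hq, ?_⟩
  intro p₁ p₂ K K' M S f h₁ h₂ hK hK' hM hf hS hb
  obtain ⟨idx, hidx⟩ := rw_b_idx fun k => K' / nm k
  have hR := RR_nonneg h₁ h₂ hK hK'.le
  have hx : ∀ k ∈ S, 1 ≤ K' / nm k := fun k hk =>
    (one_le_div (nm_pos (hS k hk).1)).2 (hS k hk).2
  have := rw_b_blocks S idx (fun k => (K' / nm k) ^ (1 / 4 : ℝ)) f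
    (fun i => ((2 : ℝ) ^ (i + 1)) ^ (1 / 4 : ℝ))
    (D := (2 : ℝ) ^ (1 / 4 : ℝ) * M * RR p₁ p₂ K K') (by positivity) hr0.le hr1 hf
    (fun k hk => Real.rpow_le_rpow (le_trans zero_le_one (hx k hk)) (hidx k (hx k hk)).2.le
      (by norm_num)) ?_
  · refine this.trans (le_of_eq ?_)
    ring
  intro i
  rcases (S.filter fun k => idx k = i).eq_empty_or_nonempty with he | ⟨k₀, hk₀⟩
  · rw [he, Finset.sum_empty, mul_zero]; positivity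
  have h2i : (0 : ℝ) < 2 ^ i := by positivity
  have hle : ∀ k ∈ S.filter fun k => idx k = i, nm k ≤ ((2 : ℝ) ^ i)⁻¹ * K' := by
    intro k hk
    rw [Finset.mem_filter] at hk
    have h := (hidx k (hx k hk.1)).1
    rw [hk.2, le_div_iff₀ (nm_pos (hS k hk.1).1)] at h
    rw [← div_eq_inv_mul, le_div_iff₀ h2i]
    linarith
  have h1 : 1 ≤ ((2 : ℝ) ^ i)⁻¹ * K' :=
    (one_le_nm (hS k₀ (Finset.mem_filter.1 hk₀).1).1).trans (hle k₀ hk₀)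
  have h3 := hb _ _ h1 (Finset.filter_subset _ _) hle
  have h4 := rw_b_RR_small h₁ h₂ hK hK'.le (inv_pos.2 h2i)
    (inv_le_one_of_one_le₀ (one_le_pow₀ one_le_two))
  have h5 : ((2 : ℝ) ^ (i + 1)) ^ (1 / 4 : ℝ) * (((2 : ℝ) ^ i)⁻¹) ^ (1 / 3 : ℝ) =
      (2 : ℝ) ^ (1 / 4 : ℝ) * ((2 : ℝ) ^ (-(1 / 12) : ℝ)) ^ i := by
    rw [← rw_b_pow, pow_succ, Real.mul_rpow h2i.le (by norm_num), Real.inv_rpow h2i.le,
      ← Real.rpow_neg h2i.le, mul_right_comm, ← Real.rpow_add h2i, mul_comm]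
    norm_num
  have hc : 0 ≤ ((2 : ℝ) ^ (i + 1)) ^ (1 / 4 : ℝ) := by positivity
  calc _ ≤ ((2 : ℝ) ^ (i + 1)) ^ (1 / 4 : ℝ) *
        (M * ((((2 : ℝ) ^ i)⁻¹) ^ (1 / 3 : ℝ) * RR p₁ p₂ K K')) :=
        mul_le_mul_of_nonneg_left (h3.trans (mul_le_mul_of_nonneg_left h4 hM)) hc
    _ = (((2 : ℝ) ^ (i + 1)) ^ (1 / 4 : ℝ) * (((2 : ℝ) ^ i)⁻¹) ^ (1 / 3 : ℝ)) *
        (M * RR p₁ p₂ K K') := by ring
    _ = _ := by rw [h5]; ring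

/-- blocks `K' 2^i ≤ N k < K' 2^(i+1)`, `RR (K' 2^(i+1)) ≤ 2^(5(i+1)/2) RR K'`, `∑ 8^(-i) 2^(5(i+1)/2) < ∞` -/
theorem dy_large : ∃ C : ℝ, 0 < C ∧ ∀ (p₁ p₂ K K' M : ℝ) (S : Finset O) (f : O → ℝ), 0 ≤ p₁ → 0 ≤ p₂ →
    0 < K → 0 < K' → 0 ≤ M → (∀ k, 0 ≤ f k) → (∀ k ∈ S, k ≠ 0 ∧ K' ≤ nm k) →
    (∀ (U : ℝ) (T : Finset O), 1 ≤ U → T ⊆ S → (∀ k ∈ T, nm k ≤ U) → ∑ k ∈ T, f k ≤ M * RR p₁ p₂ K U) →
    ∑ k ∈ S, (K' / nm k) ^ (3 : ℝ) * f k ≤ C * M * RR p₁ p₂ K K' := by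
  classical
  have hr1 : (2 : ℝ) ^ (-(1 / 2) : ℝ) < 1 :=
    Real.rpow_lt_one_of_one_lt_of_neg (by norm_num) (by norm_num)
  have hr0 : 0 < (2 : ℝ) ^ (-(1 / 2) : ℝ) := Real.rpow_pos_of_pos (by norm_num) _
  have hq : 0 < (2 : ℝ) ^ (5 / 2 : ℝ) := Real.rpow_pos_of_pos (by norm_num) _
  refine ⟨(1 - (2 : ℝ) ^ (-(1 / 2) : ℝ))⁻¹ * (2 : ℝ) ^ (5 / 2 : ℝ),
    mul_pos (inv_pos.2 (by linarith)) hq, ?_⟩
  intro p₁ p₂ K K' M S f h₁ h₂ hK hK' hM hf hS hb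
  obtain ⟨idx, hidx⟩ := rw_b_idx fun k => nm k / K'
  have hR := RR_nonneg h₁ h₂ hK hK'.le
  have hx : ∀ k ∈ S, 1 ≤ nm k / K' := fun k hk => (one_le_div hK').2 (hS k hk).2
  have := rw_b_blocks S idx (fun k => (K' / nm k) ^ (3 : ℝ)) f
    (fun i => (((2 : ℝ) ^ i)⁻¹) ^ (3 : ℝ))
    (D := (2 : ℝ) ^ (5 / 2 : ℝ) * M * RR p₁ p₂ K K') (by positivity) hr0.le hr1 hf
    (fun k hk => Real.rpow_le_rpow (div_nonneg hK'.le (nm_pos (hS k hk).1).le) (by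
      rw [← inv_div]
      exact inv_anti₀ (by positivity) (hidx k (hx k hk)).1) (by norm_num)) ?_
  · refine this.trans (le_of_eq ?_)
    ring
  intro i
  rcases (S.filter fun k => idx k = i).eq_empty_or_nonempty with he | ⟨k₀, hk₀⟩
  · rw [he, Finset.sum_empty, mul_zero]; positivity
  have h2i : (0 : ℝ) < 2 ^ i := by positivity
  have hle : ∀ k ∈ S.filter fun k => idx k = i, nm k ≤ (2 : ℝ) ^ (i + 1) * K' := by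
    intro k hk
    rw [Finset.mem_filter] at hk
    have h := (hidx k (hx k hk.1)).2
    rw [hk.2, div_lt_iff₀ hK'] at h
    exact h.le
  have h1 : 1 ≤ (2 : ℝ) ^ (i + 1) * K' :=
    (one_le_nm (hS k₀ (Finset.mem_filter.1 hk₀).1).1).trans (hle k₀ hk₀)
  have h3 := hb _ _ h1 (Finset.filter_subset _ _) hle
  have h4 := rw_b_RR_large h₁ h₂ hK hK'.le (one_le_pow₀ (n := i + 1) (one_le_two (α := ℝ)))
  have h5 : (((2 : ℝ) ^ i)⁻¹) ^ (3 : ℝ) * ((2 : ℝ) ^ (i + 1)) ^ (5 / 2 : ℝ) =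
      (2 : ℝ) ^ (5 / 2 : ℝ) * ((2 : ℝ) ^ (-(1 / 2) : ℝ)) ^ i := by
    rw [← rw_b_pow, pow_succ, Real.mul_rpow h2i.le (by norm_num), Real.inv_rpow h2i.le,
      ← Real.rpow_neg h2i.le, ← mul_assoc, ← Real.rpow_add h2i, mul_comm]
    norm_num
  have hc : 0 ≤ (((2 : ℝ) ^ i)⁻¹) ^ (3 : ℝ) := by positivity
  calc _ ≤ (((2 : ℝ) ^ i)⁻¹) ^ (3 : ℝ) *
        (M * (((2 : ℝ) ^ (i + 1)) ^ (5 / 2 : ℝ) * RR p₁ p₂ K K')) :=
        mul_le_mul_of_nonneg_left (h3.trans (mul_le_mul_of_nonneg_left h4 hM)) hc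
    _ = ((((2 : ℝ) ^ i)⁻¹) ^ (3 : ℝ) * ((2 : ℝ) ^ (i + 1)) ^ (5 / 2 : ℝ)) *
        (M * RR p₁ p₂ K K') := by ring
    _ = _ := by rw [h5]; ring

end Crest.Agent.R12.PO
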