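import Crest.Agent.R12.PO.Row
import Crest.Agent.R12.PO.Ker3

/-! Row 12, block PO: all dual rows with one label.  Prefix for helper lemmas: `rb_`. -/

set_option autoImplicit false

namespace Crest.Agent.R12.PO

open Crest.Agent.R17 Complex MeasureTheory
open scoped Real ComplexConjugate

theorem rb_pow {a B Y D n : ℝ} (ha : 0 < a) (hB : 0 < B) (hY : 0 < Y) (hD : 0 < D) (hn : 0 < n) (σ : ℝ) :
    (n * Y) ^ (-σ) * (B ^ 2 / D) ^ (σ - 1 / 2) =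
      √D / B * a ^ (2 * σ) * (B ^ 2 / (a ^ 2 * Y * D) / n) ^ σ := by
  have e1 : (B ^ 2 / D) ^ (1 / 2 : ℝ) = B / √D := by
    rw [← Real.sqrt_eq_rpow, Real.sqrt_div' _ hD.le, Real.sqrt_sq hB.le]
  have e2 : B ^ 2 / D = a ^ 2 * (B ^ 2 / (a ^ 2 * Y * D) / n) * (n * Y) := by field_simp
  have e3 : (B ^ 2 / D) ^ σ = a ^ (2 * σ) * (B ^ 2 / (a ^ 2 * Y * D) / n) ^ σ * (n * Y) ^ σ := by
    rw [Real.rpow_mul ha.le, Real.rpow_two, ← Real.mul_rpow (by positivity) (by positivity),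
      ← Real.mul_rpow (by positivity) (by positivity), ← e2]
  have h1 : 0 < (n * Y) ^ σ := by positivity
  have h2 : 0 < √D := Real.sqrt_pos.2 hD
  rw [Real.rpow_sub (by positivity), e1, e3, Real.rpow_neg (by positivity)]
  field_simp

theorem rb_part (ν : ℕ) {σ : ℝ} (hσ : σ = 1 / 4 ∨ σ = 3) : ∃ C : ℝ, 0 < C ∧ ∀ (ok : O → Prop)
    (a B K X Y D C' : ℝ) (γ u : O → ℂ) (φ₁ φ₂ : O → ℝ) (l h : O) (S : Finset O), 0 < a → a ≤ 1 → 0 < B →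
    0 < K → 0 < Y → 0 < D → 0 ≤ C' → 0 ≤ φ₁ l → 0 ≤ φ₂ l → RowBd ok γ X B K ν φ₁ φ₂ → PSq l → nm l ≤ X →
    Prim h → h ∣ l ^ 4 → (∀ k, ‖u k‖ ≤ 1) → (∀ k ∈ S, k ≠ 0 ∧ ok (k * h)) →
    (∀ (M : ℝ) (f : O → ℝ), 0 ≤ M → (∀ k, 0 ≤ f k) →
      (∀ (U : ℝ) (T : Finset O), 1 ≤ U → T ⊆ S → (∀ k ∈ T, nm k ≤ U) →
        ∑ k ∈ T, f k ≤ M * RR (φ₁ l) (φ₂ l) K U) →
      ∑ k ∈ S, (B ^ 2 / (a ^ 2 * Y * D) / nm k) ^ σ * f k ≤
        C' * M * RR (φ₁ l) (φ₂ l) K (B ^ 2 / (a ^ 2 * Y * D))) →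
    ‖∑ k ∈ S, u k * PS2 a γ X l h Y D k‖ ≤
      C * C' * (a ^ ν)⁻¹ * (a * √D / B) * RR (φ₁ l) (φ₂ l) K (B ^ 2 / (a ^ 2 * Y * D)) := by
  obtain ⟨C, hC, hV⟩ : ∃ C : ℝ, 0 < C ∧ ∀ (a M : ℝ) (G : ℂ → ℂ), 0 < a → a ≤ 1 → 0 ≤ M →
      (∀ s : ℂ, s.re = σ → ‖G s‖ ≤ M * (1 + |s.im|) ^ (ν : ℝ)) →
      ‖VI σ fun s => kw a s * G s‖ ≤ C * M * a ^ (1 - 2 * σ - ν) := by
    rcases hσ with rfl | rfl
    · exact norm_VI_kw (Or.inl rfl) (Nat.cast_nonneg ν)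
    · exact norm_VI_kw3 (Nat.cast_nonneg ν)
  refine ⟨C, hC, ?_⟩
  intro ok a B K X Y D C' γ u φ₁ φ₂ l h S ha ha1 hB hK hY hD hC' h₁ h₂ hR hl hlX hh hhl hu hS hdy
  have hσ0 : 0 < σ := by rcases hσ with rfl | rfl <;> norm_num
  have hσ2 : |σ - 1 / 2| ≤ 3 := by rcases hσ with rfl | rfl <;> norm_num [abs_le]
  obtain ⟨g, hg⟩ : ∃ g : O → ℂ → ℂ, g = fun k s => ((nm k * Y : ℝ) : ℂ) ^ (-s) *
    ((B ^ 2 / D : ℝ) : ℂ) ^ (s - 1 / 2) *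
      (RS γ X B l h k (s - 1 / 2) * conj (RS γ X B l h k (conj s - 1 / 2))) := ⟨_, rfl⟩
  have hP : ∀ k ∈ S, VInt σ (fun s => kw a s * g k s) ∧
      PS2 a γ X l h Y D k = VI σ fun s => kw a s * g k s := fun k hk => by
    rw [hg]
    exact PS2_eq_VI ha hB hY hD hσ0 γ X hl.ne_zero (hS k hk).1 h
  have e1 : ∑ k ∈ S, u k * PS2 a γ X l h Y D k = VI σ fun s => kw a s * ∑ k ∈ S, u k * g k s := by
    rw [Finset.sum_congr rfl fun k hk => by rw [(hP k hk).2, ← VI_const_mul],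
      ← VI_sum S (F := fun k s => u k * (kw a s * g k s)) fun k hk => (hP k hk).1.const_mul _]
    refine VI_congr fun s _ => ?_
    rw [Finset.mul_sum]
    exact Finset.sum_congr rfl fun k _ => by ring
  have hRR := RR_nonneg (U := B ^ 2 / (a ^ 2 * Y * D)) h₁ h₂ hK (by positivity)
  obtain ⟨R, hRe⟩ : ∃ R, R = RR (φ₁ l) (φ₂ l) K (B ^ 2 / (a ^ 2 * Y * D)) := ⟨_, rfl⟩
  rw [← hRe] at hRR hdy ⊢
  rw [e1]
  refine (hV a (√D / B * a ^ (2 * σ) * C' * R) _ ha ha1 (by positivity) fun s hs => ?_).trans_eq ?_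
  · have b1 := hdy ((1 + |s.im|) ^ ν) (fun k => (‖RS γ X B l h k (s - 1 / 2)‖ ^ 2 +
      ‖RS γ X B l h k (conj s - 1 / 2)‖ ^ 2) / 2) (by positivity) (fun k => by positivity)
      fun U T hU hT hTU => by
        have c0 : ∀ k ∈ T, k ≠ 0 ∧ nm k ≤ U ∧ ok (k * h) := fun k hk =>
          ⟨(hS k (hT hk)).1, hTU k hk, (hS k (hT hk)).2⟩
        have c1 := hR l h U (s - 1 / 2) T hl hlX hh hhl hU (by simpa [hs] using hσ2) c0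
        have c2 := hR l h U (conj s - 1 / 2) T hl hlX hh hhl hU (by simpa [hs] using hσ2) c0
        have d1 : (s - 1 / 2).im = s.im := by simp
        have d2 : |(conj s - 1 / 2).im| = |s.im| := by simp
        rw [d1] at c1
        rw [d2] at c2
        rw [← Finset.sum_div, Finset.sum_add_distrib, RR]
        linarith
    have b2 := mul_le_mul_of_nonneg_left b1 (by positivity : 0 ≤ √D / B * a ^ (2 * σ))
    rw [Real.rpow_natCast]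
    refine le_trans ?_ (b2.trans_eq (by ring))
    rw [Finset.mul_sum]
    refine (norm_sum_le _ _).trans (Finset.sum_le_sum fun k hk => ?_)
    have hk0 := nm_pos (hS k hk).1
    have d1 : (s - 1 / 2).re = σ - 1 / 2 := by simp [hs]
    rw [norm_mul, ← mul_assoc, ← rb_pow ha hB hY hD hk0, hg]
    simp only [norm_mul, RCLike.norm_conj]
    rw [norm_cpow_eq_rpow_re_of_pos (by positivity), norm_cpow_eq_rpow_re_of_pos (by positivity), neg_re,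
      hs, d1]
    refine (mul_le_of_le_one_left (by positivity) (hu k)).trans (mul_le_mul_of_nonneg_left ?_ (by positivity))
    nlinarith [sq_nonneg (‖RS γ X B l h k (s - 1 / 2)‖ - ‖RS γ X B l h k (conj s - 1 / 2)‖)]
  · have h1 : 0 < a ^ (2 * σ) := by positivity
    rw [Real.rpow_sub ha, Real.rpow_sub ha, Real.rpow_one, Real.rpow_natCast]
    field_simp

/-- Put `K' = B² / (a² Y D)` and split `S` into `N k ≤ K'` (line `σ = 1/4`, `dy_small`) and `K' < N k`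
(line `σ = 3`, `dy_large`).  On each part: `PS2_eq_VI`, `VI_sum`, `norm_VI_kw`/`norm_VI_kw3` (`θ = ν`) with
`G s = ∑ u k * (…)`; `‖(N k Y)^(-s) (B²/D)^(s-1/2)‖ = (√D / B) a^(2σ) (K'/N k)^σ`;
`f k = (‖RS (s - 1/2)‖² + ‖RS (conj s - 1/2)‖²) / 2`, `M = (1 + |Im s|)^ν`, `RowBd` twice. -/
theorem rows_le (ν : ℕ) : ∃ C : ℝ, 0 < C ∧ ∀ (ok : O → Prop) (a B K X Y D : ℝ) (γ u : O → ℂ)
    (φ₁ φ₂ : O → ℝ) (l h : O) (S : Finset O), 0 < a → a ≤ 1 → 0 < B → 0 < K → 0 < Y → 0 < D →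
    0 ≤ φ₁ l → 0 ≤ φ₂ l → RowBd ok γ X B K ν φ₁ φ₂ → PSq l → nm l ≤ X → Prim h → h ∣ l ^ 4 →
    (∀ k, ‖u k‖ ≤ 1) → (∀ k ∈ S, k ≠ 0 ∧ ok (k * h)) →
    ‖∑ k ∈ S, u k * PS2 a γ X l h Y D k‖ ≤
      C * (a ^ ν)⁻¹ * (a * √D / B) * RR (φ₁ l) (φ₂ l) K (B ^ 2 / (a ^ 2 * Y * D)) := by
  classical
  obtain ⟨C₁, hC₁, h₁⟩ := rb_part ν (Or.inl rfl)
  obtain ⟨C₂, hC₂, h₂⟩ := rb_part ν (Or.inr rfl)
  obtain ⟨D₁, hD₁, d₁⟩ := dy_small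
  obtain ⟨D₂, hD₂, d₂⟩ := dy_large
  refine ⟨C₁ * D₁ + C₂ * D₂, by positivity, ?_⟩
  intro ok a B K X Y D γ u φ₁ φ₂ l h S ha ha1 hB hK hY hD p₁ p₂ hR hl hlX hh hhl hu hS
  have hK' : 0 < B ^ 2 / (a ^ 2 * Y * D) := by positivity
  have a1 := h₁ ok a B K X Y D D₁ γ u φ₁ φ₂ l h (S.filter fun k => nm k ≤ B ^ 2 / (a ^ 2 * Y * D)) ha ha1
    hB hK hY hD hD₁.le p₁ p₂ hR hl hlX hh hhl hu (fun k hk => hS k (Finset.mem_filter.1 hk).1)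
    fun M f hM hf hT => d₁ _ _ _ _ M _ f p₁ p₂ hK hK' hM hf
      (fun k hk => ⟨(hS k (Finset.mem_filter.1 hk).1).1, (Finset.mem_filter.1 hk).2⟩) hT
  have a2 := h₂ ok a B K X Y D D₂ γ u φ₁ φ₂ l h (S.filter fun k => ¬ nm k ≤ B ^ 2 / (a ^ 2 * Y * D)) ha ha1
    hB hK hY hD hD₂.le p₁ p₂ hR hl hlX hh hhl hu (fun k hk => hS k (Finset.mem_filter.1 hk).1)
    fun M f hM hf hT => d₂ _ _ _ _ M _ f p₁ p₂ hK hK' hM hf
      (fun k hk => ⟨(hS k (Finset.mem_filter.1 hk).1).1, (not_le.1 (Finset.mem_filter.1 hk).2).le⟩) hT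
  rw [← Finset.sum_filter_add_sum_filter_not S fun k => nm k ≤ B ^ 2 / (a ^ 2 * Y * D)]
  exact (norm_add_le _ _).trans ((add_le_add a1 a2).trans_eq (by ring))

end Crest.Agent.R12.PO
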